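import Vale.Agent.P078.Sharp.Shift

/-!
# Colouring everything, equivariantly
-/

namespace Vale.Agent.P078.Sharp

open Finset Filter Topology
open Vale.Agent.P078.Transfer Vale.Agent.P078.Mss2
open Vale.Agent.P078.Mss (NumBound)

universe u

variable {K : Type u} [TopologicalSpace K] {r : ℕ}

/-- A positive invariant functional. -/
def IsInv (G : GraphModel K) (S : C(K, ℝ) →ₗ[ℝ] ℝ) : Prop :=
  (∀ f : C(K, ℝ), (∀ ψ, 0 ≤ f ψ) → 0 ≤ S f) ∧
    ∀ (i : Fin G.L) (f : C(K, ℝ)), S (f.comp ⟨G.h i, G.h_cont i⟩) = S f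

lemma IsInv.mono {G : GraphModel K} {S : C(K, ℝ) →ₗ[ℝ] ℝ} (hS : IsInv G S) {f g : C(K, ℝ)}
    (h : ∀ ψ, f ψ ≤ g ψ) : S f ≤ S g := by
  have := hS.1 (g - f) (fun ψ => by simp [h ψ])
  rw [map_sub] at this
  linarith

/-- The indicator of a clopen set. -/
noncomputable def indC (Z : Set K) (hZ : IsClopen Z) : C(K, ℝ) :=
  ⟨Z.indicator (fun _ => 1), continuous_const.indicator (by simp [hZ.frontier_eq])⟩

variable [CompactSpace K] [T2Space K] [TotallySeparatedSpace K] [NeZero r]

/-- A locally constant choice from an open cover of a clopen set by finitely many properties. -/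
lemma exists_choice {Z : Set K} (hZ : IsClopen Z) (O : Fin r → Set K) (hO : ∀ c, IsOpen (O c))
    (hcov : ∀ φ ∈ Z, ∃ c, φ ∈ O c) :
    ∃ sel : K → Fin r, IsLocallyConstant sel ∧ ∀ φ ∈ Z, φ ∈ O (sel φ) := by
  classical
  choose! cc hcc using hcov
  have hW : ∀ φ ∈ Z, ∃ W : Set K, IsClopen W ∧ φ ∈ W ∧ W ⊆ O (cc φ) := fun φ hφ =>
    compact_exists_isClopen_in_isOpen (hO _) (hcc φ hφ)
  choose! W hWc hWm hWs using hW
  obtain ⟨t, ht, hcover⟩ := hZ.isClosed.isCompact.elim_nhds_subcover W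
    (fun φ hφ => (hWc φ hφ).isOpen.mem_nhds (hWm φ hφ))
  refine ⟨fun ψ => Classical.epsilon (fun c => ∃ φ ∈ t, cc φ = c ∧ ψ ∈ W φ), ?_, ?_⟩
  · refine (IsLocallyConstant.iff_eventually_eq _).2 (fun ψ₀ => ?_)
    have hev : ∀ᶠ ψ in 𝓝 ψ₀, ∀ φ ∈ t, (ψ ∈ W φ ↔ ψ₀ ∈ W φ) := by
      refine (eventually_all_finset t).2 (fun φ hφ => ?_)
      by_cases h : ψ₀ ∈ W φ
      · filter_upwards [(hWc φ (ht φ hφ)).isOpen.mem_nhds h] with ψ hψ
        exact iff_of_true hψ h
      · filter_upwards [(hWc φ (ht φ hφ)).compl.isOpen.mem_nhds h] with ψ hψ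
        exact iff_of_false hψ h
    filter_upwards [hev] with ψ hψ
    congr 1
    funext c
    exact propext (exists_congr fun φ => and_congr_right fun hφ => and_congr_right fun _ =>
      hψ φ hφ)
  · intro φ hφ
    obtain ⟨χ, hχ, hm⟩ : ∃ χ ∈ t, φ ∈ W χ := by simpa using hcover hφ
    obtain ⟨χ', hχ', e, hm'⟩ := Classical.epsilon_spec
      (p := fun c => ∃ χ ∈ t, cc χ = c ∧ φ ∈ W χ) ⟨cc χ, χ, hχ, rfl, hm⟩
    have := hWs χ' (ht χ' hχ') hm'
    rwa [e] at this

variable [DecidableEq K] {G : GraphModel K}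

omit [CompactSpace K] in
/-- Every point has a clopen neighbourhood whose translates by the symmetry and by short words
do not meet it. -/
lemma exists_sep_shift (D : SeedData (r := r) G) (R : ℕ) [CompactSpace K] (ψ₀ : K) :
    ∃ C : Set K, IsClopen C ∧ ψ₀ ∈ C ∧ ∀ φ ∈ C, ∀ w ∈ words G.L R, ∀ k : Fin r,
      D.τ k (act G.h w φ) ∈ C → k = 0 ∧ act G.h w φ = φ := by
  classical
  have hone : ∀ (w : List (Fin G.L)) (k : Fin r), ∃ C : Set K, IsClopen C ∧ ψ₀ ∈ C ∧
      ∀ φ ∈ C, D.τ k (act G.h w φ) ∈ C → k = 0 ∧ act G.h w φ = φ := by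
    intro w k
    by_cases h : k = 0 ∧ act G.h w ψ₀ = ψ₀
    · obtain ⟨C, hC, hm, hs⟩ := compact_exists_isClopen_in_isOpen (G.fix_open w []) (x := ψ₀) h.2
      exact ⟨C, hC, hm, fun φ hφ _ => ⟨h.1, hs hφ⟩⟩
    · have hne : D.τ k (act G.h w ψ₀) ≠ ψ₀ := fun he => by
        have h1 : act G.h w ψ₀ = D.τ (-k) ψ₀ := by
          conv_rhs => rw [← he, D.τ_neg]
        have hk : k = 0 := neg_eq_zero.1 (D.free w (-k) ψ₀ h1)
        refine h ⟨hk, ?_⟩
        rw [hk, D.τ_zero] at he
        exact he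
      obtain ⟨A, hA, hm, hn⟩ := totallySeparatedSpace_iff_exists_isClopen.1
        (inferInstance : TotallySeparatedSpace K) (Ne.symm hne)
      refine ⟨A ∩ (fun φ => D.τ k (act G.h w φ)) ⁻¹' Aᶜ,
        hA.inter (hA.compl.preimage ((D.τ_cont k).comp (act_continuous G w))), ⟨hm, hn⟩,
        fun φ hφ hφ' => absurd hφ'.1 hφ.2⟩
  choose C hC hm hs using hone
  refine ⟨⋂ w ∈ (words G.L R).toFinset, ⋂ k : Fin r, C w k,
    isClopen_biInter_finset (fun w _ => isClopen_iInter_of_finite (fun k => hC w k)),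
    Set.mem_iInter₂.2 (fun w _ => Set.mem_iInter.2 (fun k => hm w k)), fun φ hφ w hw k hk => ?_⟩
  exact hs w k φ (Set.mem_iInter.1 (Set.mem_iInter₂.1 hφ w (List.mem_toFinset.2 hw)) k)
    (Set.mem_iInter.1 (Set.mem_iInter₂.1 hk w (List.mem_toFinset.2 hw)) k)

/-- Markings which respect the symmetry. -/
def Equivariant (D : SeedData (r := r) G) (m : K → Option (Fin r × Bool)) : Prop :=
  ∀ k v, m (D.τ k v) = shiftMark k (m v)

/-- One equivariant batch of colours. -/
theorem colour_batch (D : SeedData (r := r) G) {z₀ η ε : ℝ} (hη : 0 < η) (hε : 0 < ε)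
    {g : Polynomial ℝ} (hg : Imitates g z₀ η ε) {N : ℕ} (hN : g.natDegree ≤ N)
    {m : K → Option (Fin r × Bool)} (hm : IsLocallyConstant m) (hmE : Equivariant D m)
    (hact : ∀ v c, m v ≠ some (c, true)) {C : Set K} (hC : IsClopen C)
    (hsep : ∀ φ ∈ C, ∀ w ∈ words G.L (N + N), ∀ k : Fin r,
      D.τ k (act G.h w φ) ∈ C → k = 0 ∧ act G.h w φ = φ) :
    ∃ (m' : K → Option (Fin r × Bool)) (hm' : IsLocallyConstant m') (Z : Set K) (hZ : IsClopen Z),
      Equivariant D m' ∧ (∀ v c, m' v ≠ some (c, true)) ∧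
      (∀ k φ, φ ∈ C → D.sd φ = 0 → m' (D.τ k φ) ≠ none) ∧
      (∀ v, m v ≠ none → m' v = m v) ∧ (∀ v, v ∈ Z ↔ m v = none ∧ m' v ≠ none) ∧
      ∀ S : C(K, ℝ) →ₗ[ℝ] ℝ, IsInv G S →
        S ⟨pot G r N m' g, pot_continuous G hm' N g⟩
          ≤ S ⟨pot G r N m g, pot_continuous G hm N g⟩ + 3 * ε * S (indC Z hZ) := by
  classical
  set back : K → K := fun v => D.τ (-D.sd v) v with hback
  have hbc : Continuous back := by
    have : Continuous (fun p : Fin r × K => D.τ p.1 p.2) :=
      continuous_prod_of_discrete_left.2 D.τ_cont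
    exact this.comp ((D.sd_loc.comp Neg.neg).continuous.prodMk continuous_id)
  have hback0 : ∀ v, D.sd (back v) = 0 := fun v => by simp [back, D.sd_τ]
  have hbτ : ∀ k v, back (D.τ k v) = back v := fun k v => by
    simp only [back, D.sd_τ, D.τ_add]
    congr 1
    abel
  have hbsd : ∀ v, D.τ (D.sd v) (back v) = v := fun v => D.τ_neg' _ _
  set Z : Set K := {v | m v = none} ∩ back ⁻¹' C with hZdef
  have hZ : IsClopen Z := (hm.isClopen_fiber none).inter (hC.preimage hbc)
  have hZτ : ∀ k v, D.τ k v ∈ Z ↔ v ∈ Z := fun k v => by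
    simp [Z, hbτ, hmE k v, shiftMark]
  have hsepZ : ∀ φ ∈ Z, ∀ χ ∈ Z, χ ∈ nball G.nbhd (N + N) φ → χ = φ := by
    intro φ hφ χ hχ hball
    obtain ⟨w, hw, rfl⟩ := (mem_ball_iff G (N + N)).1 hball
    have e : back (act G.h w φ)
        = D.τ (-D.sd (act G.h w φ) + D.sd φ) (act G.h w (back φ)) := by
      rw [← D.τ_add, ← D.act_τ, hbsd]
    obtain ⟨-, h2⟩ := hsep (back φ) hφ.2 w hw _ (show D.τ _ _ ∈ C by rw [← e]; exact hχ.2)
    rw [← hbsd φ, D.act_τ, h2]
  set colc : Fin r → K → Option (Fin r × Bool) := fun c v =>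
    if v ∈ Z then some (D.sd v + c, false) else m v with hcolc
  have hZev : ∀ ψ₀ : K, ∀ᶠ ψ in 𝓝 ψ₀, (ψ ∈ Z ↔ ψ₀ ∈ Z) := by
    intro ψ₀
    by_cases h : ψ₀ ∈ Z
    · filter_upwards [hZ.isOpen.mem_nhds h] with ψ hψ; exact iff_of_true hψ h
    · filter_upwards [hZ.compl.isOpen.mem_nhds h] with ψ hψ; exact iff_of_false hψ h
  have hpw : ∀ f : K → Fin r, IsLocallyConstant f →
      IsLocallyConstant (fun v => if v ∈ Z then some (D.sd v + f v, false) else m v) := by
    intro f hf
    refine (IsLocallyConstant.iff_eventually_eq _).2 (fun ψ₀ => ?_)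
    filter_upwards [hZev ψ₀, (IsLocallyConstant.iff_eventually_eq _).1 hm ψ₀,
      (IsLocallyConstant.iff_eventually_eq _).1 D.sd_loc ψ₀,
      (IsLocallyConstant.iff_eventually_eq _).1 hf ψ₀] with ψ h1 h2 h3 h4
    simp only [h1, h2, h3, h4]
  have hcl : ∀ c, IsLocallyConstant (colc c) := fun c => hpw _ (IsLocallyConstant.const c)
  -- in the window of a point of `Z` only that point changes
  have hone : ∀ φ ∈ Z, ∀ (M : K → Option (Fin r × Bool)), (∀ v, v ∉ Z → M v = m v) →
      ∀ v ∈ nball G.nbhd (N + N) φ, M v = Function.update m φ (M φ) v := by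
    intro φ hφ M hM v hv
    by_cases hvφ : v = φ
    · subst hvφ; simp
    · rw [Function.update_of_ne hvφ, hM v (fun h => hvφ (hsepZ φ hφ v h hv))]
  have hwin : ∀ φ ∈ Z, ∀ (M : K → Option (Fin r × Bool)), (∀ v, v ∉ Z → M v = m v) →
      localDiff G r N m M g φ = localDiff G r N m (Function.update m φ (M φ)) g φ := by
    intro φ hφ M hM
    refine Finset.sum_congr rfl (fun S hS => ?_)
    rw [kapPoly_congr (p := claw M) (q := claw (Function.update m φ (M φ))) (fun v hv => by
      simp only [claw, ← hone φ hφ M hM v (Finset.mem_powerset.1 hS hv)])]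
  have hflip : ∀ φ ∈ Z, ∃ c, φ ∈ {ψ | localDiff G r N m (colc c) g ψ < 3 * ε} := by
    intro φ hφ
    set U := nball G.nbhd (N + N) φ with hU
    have hu : φ ∈ U := mem_nball_self (banded (r := r) G) _ φ
    let ι : {v // v ∈ U} ↪ K := Function.Embedding.subtype _
    obtain ⟨d, hd⟩ := flip_colour (winX_bound G (N + N) φ) (fun i => m i.1) (u := ⟨φ, hu⟩) hφ.1 hη hg
    refine ⟨d - D.sd φ, ?_⟩
    rw [Set.mem_setOf_eq]
    rw [hwin φ hφ (colc (d - D.sd φ)) (fun v hv => if_neg hv)]
    have hv : colc (d - D.sd φ) φ = some (d, false) := by simp [colc, hφ]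
    rw [hv]
    have e : ∀ M : K → Option (Fin r × Bool),
        ∑ S ∈ U.powerset, kapPoly (tk r G.x) (claw M) g S
          = ∑ T : Finset {v // v ∈ U},
              kapPoly (tk r (G.x.submatrix ι ι)) (claw fun i => M i.1) g T := by
      intro M
      rw [sum_window]
      refine Finset.sum_congr rfl (fun T _ => Finset.sum_congr rfl (fun k _ => ?_))
      rw [kappa_map (claw_sum M) ι k T]
      rfl
    have hupd : (fun i : {v // v ∈ U} => Function.update m φ (some (d, false)) i.1)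
        = Function.update (fun i => m i.1) ⟨φ, hu⟩ (some (d, false)) := by
      funext i
      by_cases hi : i = ⟨φ, hu⟩
      · subst hi; simp
      · rw [Function.update_of_ne hi, Function.update_of_ne (fun h => hi (Subtype.ext h))]
    rw [localDiff, Finset.sum_sub_distrib, e, e, hupd]
    have hd' : ∑ T : Finset {v // v ∈ U}, kapPoly (tk r (G.x.submatrix ι ι))
        (claw (Function.update (fun i : {v // v ∈ U} => m i.1) ⟨φ, hu⟩ (some (d, false)))) g T
        ≤ (∑ T : Finset {v // v ∈ U}, kapPoly (tk r (G.x.submatrix ι ι))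
          (claw fun i : {v // v ∈ U} => m i.1) g T) + 2 * ε := hd
    linarith
  obtain ⟨sel, hsel, hselm⟩ := exists_choice hZ (fun c => {ψ | localDiff G r N m (colc c) g ψ < 3 * ε})
    (fun c => isOpen_lt (localDiff_continuous G hm (hcl c) N g) continuous_const) hflip
  set m' : K → Option (Fin r × Bool) := fun v =>
    if v ∈ Z then some (D.sd v + sel (back v), false) else m v with hm'def
  have hm' : IsLocallyConstant m' := hpw _ (hsel.comp_continuous hbc)
  refine ⟨m', hm', Z, hZ, fun k v => ?_, fun v c => ?_, fun k φ hφ hsd => ?_, fun v hv => ?_,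
    fun v => ?_, fun S hS => ?_⟩
  · by_cases h : v ∈ Z
    · simp [m', h, (hZτ k v).2 h, hbτ, D.sd_τ, shiftMark]
      abel
    · simp [m', h, (hZτ k v).not.2 h, hmE k v]
  · simp only [m']
    split_ifs
    · simp
    · exact hact v c
  · simp only [m']
    split_ifs with h
    · simp
    · intro h0
      refine h ⟨h0, ?_⟩
      change back (D.τ k φ) ∈ C
      rw [hbτ]
      simpa [back, hsd, D.τ_zero] using hφ
  · simp only [m']
    rw [if_neg (fun h => hv h.1)]
  · simp only [m']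
    constructor
    · intro h; exact ⟨h.1, by rw [if_pos h]; simp⟩
    · rintro ⟨h1, h2⟩
      by_contra h
      rw [if_neg h] at h2
      exact h2 h1
  · refine batch_change G hN hm hm' hZ (fun v hv => if_neg hv) hsepZ (fun φ hφ => ?_) S hS.1 hS.2
    -- move the selection back along the symmetry
    have h0 : back φ ∈ Z := (hZτ (-D.sd φ) φ).2 hφ
    have hlt : localDiff G r N m (colc (sel (back φ))) g (back φ) < 3 * ε := hselm _ h0
    have hshift := D.localDiff_τ N (m₁ := colc (sel (back φ))) (m₂ := m') hmE (D.sd φ)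
      (φ := back φ) (fun v hv => ?_) g
    · rw [hbsd] at hshift
      rw [hshift]
      exact hlt.le
    by_cases h : v ∈ Z
    · have hvb : v = back φ := hsepZ _ h0 v h hv
      subst hvb
      simp [m', colc, hφ, h0, hback0, hbsd, hbτ, shiftMark]
      abel
    · simp [m', colc, h, (hZτ (D.sd φ) v).not.2 h, hmE (D.sd φ) v]

/-- Colour every point, equivariantly, keeping the potential small. -/
theorem colour_all (D : SeedData (r := r) G) (hr : 2 ≤ r) {z₀ η ε : ℝ} (hη : 0 < η) (hε : 0 < ε)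
    {g : Polynomial ℝ} (hg : Imitates g z₀ η ε) {N : ℕ} (hN : g.natDegree ≤ N) {b B : ℝ}
    (hb : 3 / Real.sqrt r ≤ b) (hB : ∀ s ∈ Set.Icc (-1 : ℝ) b, g.eval s ≤ B) :
    ∃ (c : K → Fin r) (hc : IsLocallyConstant c),
      (∀ k v, c (D.τ k v) = c v + k) ∧
      ∀ S : C(K, ℝ) →ₗ[ℝ] ℝ, IsInv G S →
        S ⟨pot G r N (fun v => some (c v, false)) g,
            pot_continuous G (hc.comp fun d => some (d, false)) N g⟩
          ≤ (B + 3 * ε) * S 1 := by
  classical
  choose Cs hCs hCm hCsep using exists_sep_shift D (N + N)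
  have h0 : IsClopen {v | D.sd v = 0} := D.sd_loc.isClopen_fiber 0
  obtain ⟨t, -, ht⟩ := h0.isClosed.isCompact.elim_nhds_subcover Cs
    (fun ψ _ => (hCs ψ).isOpen.mem_nhds (hCm ψ))
  have main : ∀ s : Finset K, ∃ (m : K → Option (Fin r × Bool)) (hm : IsLocallyConstant m),
      Equivariant D m ∧ (∀ v c, m v ≠ some (c, true)) ∧
      (∀ i ∈ s, ∀ k φ, φ ∈ Cs i → D.sd φ = 0 → m (D.τ k φ) ≠ none) ∧
      ∀ S : C(K, ℝ) →ₗ[ℝ] ℝ, IsInv G S →
        S ⟨pot G r N m g, pot_continuous G hm N g⟩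
          + 3 * ε * S (indC {v | m v = none} (hm.isClopen_fiber none)) ≤ (B + 3 * ε) * S 1 := by
    intro s
    induction s using Finset.induction with
    | empty =>
      have hconst : IsLocallyConstant (fun _ : K => (none : Option (Fin r × Bool))) :=
        IsLocallyConstant.const none
      refine ⟨fun _ => none, hconst, fun _ _ => rfl, by simp, by simp, fun S hS => ?_⟩
      have h1 := hS.mono (f := ⟨pot G r N (fun _ => none) g, pot_continuous G hconst N g⟩)
        (g := B • (1 : C(K, ℝ))) (fun ψ => by simpa using pot_none_le G hr N hb hB ψ)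
      have h2 := hS.mono (f := indC {v | (fun _ : K => (none : Option (Fin r × Bool))) v = none}
        (hconst.isClopen_fiber none)) (g := (1 : C(K, ℝ))) (fun ψ => by simp [indC])
      rw [map_smul, smul_eq_mul] at h1
      nlinarith
    | insert i s hi ih =>
      obtain ⟨m, hm, hmE, hact, hdone, hle⟩ := ih
      obtain ⟨m', hm', Z, hZ, hmE', hact', hdone', hkeep, hZiff, hstep⟩ :=
        colour_batch D hη hε hg hN hm hmE hact (hCs i) (hCsep i)
      refine ⟨m', hm', hmE', hact', fun j hj k φ hφ hsd => ?_, fun S hS => ?_⟩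
      · rcases Finset.mem_insert.1 hj with rfl | hj
        · exact hdone' k φ hφ hsd
        · rw [hkeep _ (hdone j hj k φ hφ hsd)]
          exact hdone j hj k φ hφ hsd
      · have e : indC {v | m' v = none} (hm'.isClopen_fiber none) + indC Z hZ
            = indC {v | m v = none} (hm.isClopen_fiber none) := by
          ext v
          simp only [indC, ContinuousMap.add_apply, ContinuousMap.coe_mk, Set.indicator,
            Set.mem_setOf_eq, hZiff v]
          by_cases h1 : m v = none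
          · by_cases h2 : m' v = none <;> simp [h1, h2]
          · simp [h1, hkeep v h1]
        have h1 := hle S hS
        rw [← e, map_add] at h1
        have h2 := hstep S hS
        nlinarith
  obtain ⟨m, hm, hmE, hact, hdone, hle⟩ := main t
  have hall : ∀ v, ∃ c, m v = some (c, false) := fun v => by
    have h1 : D.τ (-D.sd v) v ∈ {w | D.sd w = 0} := by simp [D.sd_τ]
    obtain ⟨i, hi, hv⟩ : ∃ i ∈ t, D.τ (-D.sd v) v ∈ Cs i := by simpa using ht h1
    have h2 := hdone i hi (D.sd v) _ hv h1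
    rw [D.τ_neg'] at h2
    obtain ⟨⟨c, b'⟩, hc⟩ := Option.ne_none_iff_exists'.1 h2
    cases b'
    · exact ⟨c, hc⟩
    · exact absurd hc (hact v c)
  choose c hc using hall
  obtain rfl : m = fun v => some (c v, false) := funext hc
  have hcl : IsLocallyConstant c := hm.comp (fun o => (o.map Prod.fst).getD 0)
  refine ⟨c, hcl, fun k v => ?_, fun S hS => ?_⟩
  · simpa [shiftMark] using hmE k v
  · have h1 := hle S hS
    have h2 : 0 ≤ S (indC {v | some (c v, false) = (none : Option (Fin r × Bool))}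
        (hm.isClopen_fiber none)) := hS.1 _ (fun ψ => by simp [indC])
    nlinarith

end Vale.Agent.P078.Sharp
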