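import Vale.Agent.P078.Sharp.Moment
import Vale.Agent.P078.Sharp.Seed.Build
import Vale.Agent.P078.Sharp.Mix.Main
import Vale.Agent.P078.Assembly.Regular

/-!
# One colouring for the regular and the mixing part
-/

namespace Vale.Agent.P078.Sharp

open ComplexInnerProductSpace
open Filter Topology
open Vale.Agent.P078 Vale.Agent.P078.General Vale.Agent.P078.Finite Vale.Agent.P078.Transfer

universe u

section seed

variable {K : Type u} [TopologicalSpace K] [CompactSpace K] [T2Space K] [TotallySeparatedSpace K]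

lemma shift_free (G : GraphModel K) {r : ℕ} [NeZero r] (w : List (Fin G.L)) (k : Fin r)
    (p : Seeded G r) (hw : act (seedH G) w p = shift G k p) : k = 0 := by
  have h2 : p.1.2 (w ++ []) = p.1.2 [] + k := by
    have e' : (act (seedH G) w p).1.2 [] = (shift G k p).1.2 [] :=
      congrArg (fun q : Seeded G r => q.1.2 []) hw
    rw [act_seed] at e'
    exact e'
  have h1 : act G.h w p.1.1 = act G.h [] p.1.1 := by
    have e' : (act (seedH G) w p).1.1 = (shift G k p).1.1 :=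
      congrArg (fun q : Seeded G r => q.1.1) hw
    rw [act_seed] at e'
    exact e'
  rw [List.append_nil, p.2 w [] h1] at h2
  exact left_eq_add.1 h2

/-- The seed extension carries a free cyclic symmetry. -/
def seededData (G : GraphModel K) (r : ℕ) [NeZero r] : SeedData (r := r) (G.seeded r) where
  τ := shift G
  τ_cont := continuous_shift G
  τ_zero p := Subtype.ext (Prod.ext rfl (funext fun w => add_zero _))
  τ_add k l p := Subtype.ext (Prod.ext rfl (funext fun w => by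
    change p.1.2 w + l + k = p.1.2 w + (k + l)
    rw [add_assoc, add_comm l k]))
  τ_h i k p := (shift_h G k i p).symm
  τ_x k a b := seedX_shift G k a b
  sd p := p.1.2 []
  sd_loc := IsLocallyConstant.iff_continuous _ |>.2 (by fun_prop)
  sd_τ k p := rfl
  free w k p hw := shift_free G w k p hw

lemma pullT_isInv (G : GraphModel K) {r : ℕ} (σ : K → Fin r) (hσ : IsLocallyConstant σ) :
    IsInv (G.seeded r) (pullT G σ hσ) :=
  ⟨pullT_nonneg G σ hσ, pullT_inv G σ hσ⟩

end seed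

variable {H : Type u} [NormedAddCommGroup H] [InnerProductSpace ℂ H] [CompleteSpace H]
variable {M : VonNeumannAlgebra H} {A : StarSubalgebra ℂ (H →L[ℂ] H)} {Ω : H}

lemma exists_order (C : ℝ) {ρ : ℝ} (hρ0 : 0 ≤ ρ) (hρ1 : ρ < 1) {ξ : ℝ} (hξ : 0 < ξ) :
    ∃ m j : ℕ, 1 ≤ j ∧ 2 * (m + 1) = 2 ^ j ∧ C * ρ ^ (2 * (m + 1)) < ξ := by
  obtain ⟨k, hk⟩ : ∃ k, ∀ n ≥ k, C * ρ ^ n < ξ := by
    have h := (tendsto_pow_atTop_nhds_zero_of_lt_one hρ0 hρ1).const_mul C
    rw [mul_zero] at h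
    exact Filter.eventually_atTop.1 (h.eventually (eventually_lt_nhds hξ))
  refine ⟨2 ^ k - 1, k + 1, by omega, ?_, hk _ ?_⟩
  · have := Nat.one_le_two_pow (n := k)
    rw [pow_succ]; omega
  · have := Nat.lt_two_pow_self (n := k)
    omega

variable (h : FinSetting M A Ω)
include h

/-- Every centred self-adjoint contraction is paved to `64 / √r` by `r` pieces. -/
theorem core_pave {x : H →L[ℂ] H} (hx : x ∈ M) (hxs : IsSelfAdjoint x) (hx1 : ‖x‖ ≤ 1)
    (hx0 : plim h.masa x = 0) {r : ℕ} (hr : 2 ≤ r) :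
    L2Paved M A Ω (64 / Real.sqrt r) r x := by
  classical
  refine l2Paved_of_part (fun η hη => ?_)
  haveI : NeZero r := ⟨by omega⟩
  have hA := h.masa
  have hsr : 0 < Real.sqrt r := Real.sqrt_pos.2 (by exact_mod_cast (by omega : 0 < r))
  obtain ⟨n, hnN, hns, hn1, hnw⟩ := exists_decomp_sa h hx hxs
  set w := x - n with hw
  have hwM : w ∈ M := sub_mem hx hnN.1
  have hws : IsSelfAdjoint w := hxs.sub hns
  have hn0 : plim hA n = 0 := by
    have e : n = x - w := by rw [hw]; abel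
    rw [e, ← plimₗ_eq hA, map_sub, plimₗ_eq, plimₗ_eq, hx0, plim_eq_zero_of_orthN h hwM hnw,
      sub_zero]
  set u' := (2⁻¹ : ℝ) • w with hu'
  have huM : u' ∈ M := by rw [hu', ← Complex.coe_smul]; exact smul_mem_vna _ hwM
  have hu1 : ‖u'‖ ≤ 1 := by
    rw [hu', norm_smul, Real.norm_eq_abs, abs_of_pos (by norm_num : (0:ℝ) < 2⁻¹)]
    have := norm_sub_le x n
    rw [hw]
    linarith
  have huN : OrthN M A Ω u' := by
    intro v hv
    rw [hu', ← Complex.coe_smul, smul_apply, inner_smul_right, hnw v hv, mul_zero]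
  -- the regular part, up to a small error
  obtain ⟨t, htm, hts, htn, htd⟩ :=
    exists_span_approx h hnN hns (hn1.trans hx1) (show 0 < η / 8 by linarith)
  have htM := spanN_mem_M htm
  set d := plim hA t with hd
  have hdA : d ∈ A := plim_mem hA htM
  have hds : IsSelfAdjoint d := plim_isSelfAdjoint hA hts
  set x₀ := t - d with hx₀
  have hx₀M : x₀ ∈ M := sub_mem htM (hA.mem_M hdA)
  set X := (3⁻¹ : ℝ) • x₀ with hX
  have hXs : IsSelfAdjoint X := (IsSelfAdjoint.all _).smul (hts.sub hds)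
  have hXmem : X ∈ symSpan M A := by
    rw [hX, ← Complex.coe_smul]
    exact Submodule.smul_mem _ _ (sub_mem (spanN_le_symSpan h htm) (symSpan_mem_A hdA))
  have hX1 : ‖X‖ ≤ 1 := by
    rw [hX, norm_smul, Real.norm_eq_abs, abs_of_pos (by norm_num : (0:ℝ) < 3⁻¹)]
    have := (norm_sub_le t d).trans (add_le_add le_rfl (plim_norm_le hA t))
    rw [hx₀]
    linarith
  have hX0 : plim hA X = 0 := by
    rw [hX, ← Complex.coe_smul, plim_smul, hx₀, ← plimₗ_eq hA, map_sub, plimₗ_eq, plimₗ_eq,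
      plim_of_mem hA hdA, sub_self, smul_zero]
  obtain ⟨L, s, b, hs, hb, hrep⟩ := exists_repr hXmem
  obtain ⟨K, _, _, _, _, G, hT1, hG⟩ := exists_seeded_model h s b hs hb hrep hXs hX1 hX0
  -- the order of the moment and the size of its error
  set τ := 16 / Real.sqrt r with hτ
  have hτ0 : 0 < τ := by positivity
  obtain ⟨m, j, hj, hmj, hm⟩ := exists_order (τ ^ 2 * ‖Ω‖ ^ 2) (show (0:ℝ) ≤ 1 / 2 by norm_num)
    (by norm_num) (show 0 < (η / 12) ^ 2 / 2 by positivity)
  set δ := (η / 12) ^ 2 / 2 * τ ^ (2 * m) / (‖Ω‖ ^ 2 + 1) with hδdef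
  have hδ : 0 < δ := by positivity
  have : DecidableEq (Seeded G r) := Classical.decEq _
  obtain ⟨c, hc, hcE, hcd, hbound⟩ := exists_small_moment (seededData G r) hr hj hδ
  obtain ⟨N, uu, coef, hu, hcoef, hproj, horth, htot, hunif, htr⟩ := hG c hc hcE
  obtain ⟨P, f, z', hz'M, hz's, hz'n, hz'd⟩ := mix_pave_seeded h huM
    ((IsSelfAdjoint.all _).smul hws) hu1 huN (show 1 ≤ r by omega) uu hu coef hcoef hproj horth htot
    hunif (show 0 < η / 4 by linarith)
  have hqA : ∀ a, seedQ P uu coef f a ∈ A := fun a =>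
    sum_mem fun κ _ => mul_mem (hcoef κ a)
      (ofFn_prod_mem fun i => (hu i).1.conj_mem ((P.piece_props f).1 _).1)
  set q := fun a => seedQ P uu coef f a with hq
  set Q := partOf q (fun a => ⟨hqA a, hproj P f a⟩) (horth P f) (htot P f) with hQ
  have hQp : ∀ y, Q.pinch y = ∑ a, q a * y * q a := fun y => rfl
  set S := Q.pinch X with hS
  have hSM : S ∈ M := pinch_mem hA (symSpan_le_vna hA hXmem) Q
  have hSs : IsSelfAdjoint S := pinch_isSelfAdjoint Q hXs
  have hmom : (⟪Ω, (S ^ (2 * (m + 1))) Ω⟫).re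
      ≤ ((1 / 2 * τ) ^ (2 * (m + 1)) + δ) * ‖Ω‖ ^ 2 := by
    obtain ⟨σ, hσ, htr'⟩ := htr P f
    have h1 := hbound (pullT G σ hσ) (pullT_isInv G σ hσ)
    rw [htr' _ hcd, pullT_one, hT1] at h1
    rw [show (1 : ℝ) / 2 * τ = 8 / Real.sqrt r by rw [hτ]; ring, hmj]
    simpa [S, hQp, q] using h1
  set cl := cfc (clamp τ) S with hcl
  have hdS : ‖(S - cl) Ω‖ ≤ η / 12 := by
    refine (sq_le_sq₀ (norm_nonneg _) (by positivity)).1
      ((truncate h hSs hτ0 (by norm_num) m hmom).trans ?_)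
    have h2 : δ / τ ^ (2 * m) * ‖Ω‖ ^ 2 ≤ (η / 12) ^ 2 / 2 := by
      have hp : (0:ℝ) < τ ^ (2 * m) := by positivity
      rw [hδdef, show (η / 12) ^ 2 / 2 * τ ^ (2 * m) / (‖Ω‖ ^ 2 + 1) / τ ^ (2 * m)
        = (η / 12) ^ 2 / 2 / (‖Ω‖ ^ 2 + 1) by field_simp, div_mul_eq_mul_div,
        div_le_iff₀ (by positivity)]
      exact mul_le_mul_of_nonneg_left (by linarith) (by positivity)
    nlinarith [hm, h2]
  refine ⟨Q, rfl, (3 : ℝ) • cl + (2 : ℝ) • z',
    add_mem (by rw [← Complex.coe_smul]; exact smul_mem_vna _ (cfc_mem hSM _))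
      (by rw [← Complex.coe_smul]; exact smul_mem_vna _ hz'M),
    ((IsSelfAdjoint.all _).smul (cfc_predicate _ _)).add ((IsSelfAdjoint.all _).smul hz's), ?_, ?_⟩
  · refine (norm_add_le _ _).trans ?_
    rw [norm_smul, norm_smul, Real.norm_eq_abs, Real.norm_eq_abs,
      abs_of_pos (by norm_num : (0:ℝ) < 3), abs_of_pos (by norm_num : (0:ℝ) < 2)]
    calc 3 * ‖cl‖ + 2 * ‖z'‖ ≤ 3 * τ + 2 * (8 / Real.sqrt r) :=
          add_le_add (mul_le_mul_of_nonneg_left (norm_cfc_clamp_le hτ0.le _) (by norm_num))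
            (by linarith)
      _ = 64 / Real.sqrt r := by rw [hτ]; ring
  have ew : Q.pinch w = (2 : ℝ) • Q.pinch u' := by
    rw [hu', ← Complex.coe_smul, ← Complex.coe_smul, pinch_smul, smul_smul]
    norm_num
  have e0 : Q.pinch x₀ = (3 : ℝ) • S := by
    rw [hS, hX, ← Complex.coe_smul, ← Complex.coe_smul, pinch_smul, smul_smul]
    norm_num
  have e : Q.pinch x - ((3 : ℝ) • cl + (2 : ℝ) • z')
      = (3 : ℝ) • (S - cl) + Q.pinch (n - x₀) + (2 : ℝ) • (Q.pinch u' - z') := by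
    rw [pinch_sub, e0, show x = n + w by rw [hw]; abel, pinch_add, ew, smul_sub, smul_sub]
    abel
  rw [e, add_apply, add_apply, smul_apply, smul_apply]
  refine (norm_add₃_le).trans ?_
  rw [norm_smul, norm_smul, Real.norm_eq_abs, Real.norm_eq_abs,
    abs_of_pos (by norm_num : (0:ℝ) < 3), abs_of_pos (by norm_num : (0:ℝ) < 2)]
  have h1 : ‖Q.pinch (n - x₀) Ω‖ ≤ η / 4 := by
    refine (norm_pinch_apply_le h Q (sub_mem hnN.1 hx₀M)).trans ?_
    rw [show n - x₀ = (n - t) + d by rw [hx₀]; abel, add_apply]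
    refine (norm_add_le _ _).trans ?_
    have : ‖d Ω‖ ≤ ‖(n - t) Ω‖ := by
      have e : d = plim hA (t - n) := by
        rw [← plimₗ_eq hA, map_sub, plimₗ_eq, plimₗ_eq, hn0, sub_zero, hd]
      rw [e, ← neg_sub t n, neg_apply, norm_neg]
      exact norm_plim_apply_le h (sub_mem htM hnN.1)
    linarith
  have h2 : ‖(Q.pinch u' - z') Ω‖ ≤ η / 4 := by rw [hQp]; exact hz'd
  linarith

end Vale.Agent.P078.Sharp
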