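import Vale.Agent.P078.Sharp.Colour
import Vale.Agent.P078.Mss2.Majorise

/-!
# The two-sided engine

Every point is coloured with both signs, then the negative signs are removed; both operations
do not increase even moments.
-/

namespace Vale.Agent.P078.Sharp

open Finset Filter Topology
open Vale.Agent.P078.Transfer Vale.Agent.P078.Mss2
open Vale.Agent.P078.Mss (NumBound)

universe u

variable {K : Type u} [TopologicalSpace K] [CompactSpace K] [T2Space K] [TotallySeparatedSpace K]
variable [DecidableEq K] {r : ℕ} [NeZero r] (G : GraphModel K)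

omit [CompactSpace K] in
/-- Every point has a clopen neighbourhood without two points at distance at most `R`. -/
lemma exists_separated (R : ℕ) [CompactSpace K] (ψ₀ : K) :
    ∃ C : Set K, IsClopen C ∧ ψ₀ ∈ C ∧
      ∀ φ ∈ C, ∀ χ ∈ C, χ ∈ nball G.nbhd R φ → χ = φ := by
  classical
  have hw : ∀ w : List (Fin G.L), ∃ C : Set K, IsClopen C ∧ ψ₀ ∈ C ∧
      ∀ φ ∈ C, act G.h w φ ∈ C → act G.h w φ = φ := by
    intro w
    by_cases h : act G.h w ψ₀ = ψ₀
    · obtain ⟨C, hC, hm, hs⟩ := compact_exists_isClopen_in_isOpen (G.fix_open w []) (x := ψ₀) h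
      exact ⟨C, hC, hm, fun φ hφ _ => hs hφ⟩
    · obtain ⟨A, hA, hm, hn⟩ := totallySeparatedSpace_iff_exists_isClopen.1
        (inferInstance : TotallySeparatedSpace K) (Ne.symm h)
      exact ⟨A ∩ act G.h w ⁻¹' Aᶜ, hA.inter (hA.compl.preimage (act_continuous G w)), ⟨hm, hn⟩,
        fun φ hφ hφ' => absurd hφ'.1 hφ.2⟩
  choose C hC hm hs using hw
  refine ⟨⋂ w ∈ (words G.L R).toFinset, C w, isClopen_biInter_finset (fun w _ => hC w),
    Set.mem_iInter₂.2 (fun w _ => hm w), fun φ hφ χ hχ hball => ?_⟩
  obtain ⟨w, hw, rfl⟩ := (mem_ball_iff G R).1 hball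
  exact hs w φ (Set.mem_iInter₂.1 hφ w (List.mem_toFinset.2 hw))
    (Set.mem_iInter₂.1 hχ w (List.mem_toFinset.2 hw))

/-- Removing the negative signs does not increase even moments. -/
theorem remove_all {j : ℕ} (hj : 1 ≤ j) {N : ℕ} (hN : 2 ^ j ≤ N) {c : K → Fin r}
    (hc : IsLocallyConstant c) {S : C(K, ℝ) →ₗ[ℝ] ℝ} (hS : IsInv G S) :
    S ⟨pot G r N (fun v => some (c v, true)) (Polynomial.X ^ (2 ^ j)),
        pot_continuous G (hc.comp fun d => some (d, true)) N _⟩
      ≤ S ⟨pot G r N (fun v => some (c v, false)) (Polynomial.X ^ (2 ^ j)),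
        pot_continuous G (hc.comp fun d => some (d, false)) N _⟩ := by
  classical
  set g : Polynomial ℝ := Polynomial.X ^ (2 ^ j) with hg
  have hgN : g.natDegree ≤ N := by rw [hg, Polynomial.natDegree_X_pow]; exact hN
  choose Cs hCs hCm hCsep using exists_separated G (N + N)
  obtain ⟨t, -, ht⟩ := (isCompact_univ (X := K)).elim_nhds_subcover Cs
    (fun ψ _ => (hCs ψ).isOpen.mem_nhds (hCm ψ))
  set mk : Set K → K → Option (Fin r × Bool) := fun U v =>
    some (c v, decide (v ∈ U)) with hmk
  have hlc : ∀ U : Set K, IsClopen U → IsLocallyConstant (mk U) := by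
    intro U hU
    refine (IsLocallyConstant.iff_eventually_eq _).2 (fun ψ₀ => ?_)
    have hev : ∀ᶠ ψ in 𝓝 ψ₀, (ψ ∈ U ↔ ψ₀ ∈ U) := by
      by_cases h : ψ₀ ∈ U
      · filter_upwards [hU.isOpen.mem_nhds h] with ψ hψ; exact iff_of_true hψ h
      · filter_upwards [hU.compl.isOpen.mem_nhds h] with ψ hψ; exact iff_of_false hψ h
    filter_upwards [hev, (IsLocallyConstant.iff_eventually_eq _).1 hc ψ₀] with ψ h1 h2
    simp only [mk, h2, Option.some.injEq, Prod.mk.injEq, true_and]
    exact decide_eq_decide.2 h1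
  have hU : ∀ s : Finset K, IsClopen (⋃ i ∈ s, Cs i) := fun s =>
    isClopen_biUnion_finset (fun i _ => hCs i)
  have main : ∀ s : Finset K,
      S ⟨pot G r N (mk (⋃ i ∈ s, Cs i)) g, pot_continuous G (hlc _ (hU s)) N g⟩
        ≤ S ⟨pot G r N (fun v => some (c v, false)) g,
            pot_continuous G (hc.comp fun d => some (d, false)) N g⟩ := by
    intro s
    induction s using Finset.induction with
    | empty =>
      refine le_of_eq (congrArg S (ContinuousMap.ext fun ψ => ?_))
      have e : mk (⋃ i ∈ (∅ : Finset K), Cs i) = fun v => some (c v, false) := by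
        funext v; simp [mk]
      change pot G r N _ g ψ = pot G r N _ g ψ
      rw [e]
    | insert i s hi ih =>
      refine le_trans ?_ ih
      set U := ⋃ a ∈ s, Cs a with hUdef
      set U' := ⋃ a ∈ insert i s, Cs a with hU'def
      set Z := Cs i \ U with hZdef
      have hZ : IsClopen Z := (hCs i).diff (hU s)
      have hout : ∀ v, v ∉ Z → mk U' v = mk U v := by
        intro v hv
        simp only [mk, Option.some.injEq, Prod.mk.injEq, true_and]
        refine decide_eq_decide.2 ⟨fun h => ?_, fun h => ?_⟩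
        · simp only [U', Finset.set_biUnion_insert, Set.mem_union] at h
          rcases h with h | h
          · by_contra h'; exact hv ⟨h, h'⟩
          · exact h
        · simp only [U', Finset.set_biUnion_insert, Set.mem_union]
          exact Or.inr h
      have hsep : ∀ φ ∈ Z, ∀ χ ∈ Z, χ ∈ nball G.nbhd (N + N) φ → χ = φ :=
        fun φ hφ χ hχ => hCsep i φ hφ.1 χ hχ.1
      have hstep := batch_change G hgN (hlc _ (hU s)) (hlc _ (hU (insert i s))) hZ hout hsep (e := 0)
        (fun φ hφ => ?_) S hS.1 hS.2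
      · simpa using hstep
      set W := nball G.nbhd (N + N) φ with hW
      have hu : φ ∈ W := mem_nball_self (banded (r := r) G) _ φ
      let ι : {v // v ∈ W} ↪ K := Function.Embedding.subtype _
      have h1 : mk U φ = some (c φ, false) := by simp [mk, hφ.2]
      have h2 : mk U' φ = some (c φ, true) := by
        simp [mk, U', Finset.set_biUnion_insert, hφ.1]
      have hupd : (fun v : {v // v ∈ W} => mk U' v.1)
          = Function.update (fun v : {v // v ∈ W} => mk U v.1) ⟨φ, hu⟩ (some (c φ, true)) := by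
        funext v
        by_cases hv : v = ⟨φ, hu⟩
        · subst hv; simp [h2]
        · rw [Function.update_of_ne hv]
          exact hout v.1 (fun h => hv (Subtype.ext (hsep φ hφ v.1 h v.2)))
      have e : ∀ M : K → Option (Fin r × Bool),
          ∑ S' ∈ W.powerset, kapPoly (tk r G.x) (claw M) g S'
            = ∑ T : Finset {v // v ∈ W},
                kapPoly (tk r (G.x.submatrix ι ι)) (claw fun v => M v.1) g T := by
        intro M
        rw [sum_window]
        refine Finset.sum_congr rfl (fun T _ => Finset.sum_congr rfl (fun k _ => ?_))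
        rw [kappa_map (claw_sum M) ι k T]
        rfl
      rw [localDiff, Finset.sum_sub_distrib, e, e, hupd, sub_nonpos]
      exact remove_sign (G.x_bound W) (fun v => G.x_diag v.1) _ (u := ⟨φ, hu⟩) (c := c φ) h1 hj
  refine le_trans (le_of_eq (congrArg S (ContinuousMap.ext fun ψ => ?_))) (main t)
  have e : mk (⋃ i ∈ t, Cs i) = fun v => some (c v, true) := by
    funext v
    have hv : ∃ i ∈ t, v ∈ Cs i := by simpa using ht (Set.mem_univ v)
    simpa [mk] using hv
  change pot G r N _ g ψ = pot G r N _ g ψ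
  rw [e]

variable {G}

/-- **The engine.** An equivariant colouring whose pinched kernel has small even moments, for every
positive invariant functional at once. -/
theorem engine (D : SeedData (r := r) G) (hr : 2 ≤ r) {z₀ η ε : ℝ} (hη : 0 < η) (hε : 0 < ε)
    {g : Polynomial ℝ} (hg : Imitates g z₀ η ε) {b B : ℝ}
    (hb : 3 / Real.sqrt r ≤ b) (hB : ∀ s ∈ Set.Icc (-1 : ℝ) b, g.eval s ≤ B) {j : ℕ} (hj : 1 ≤ j)
    {a : ℝ} (ha : ∀ s ∈ Set.Icc (-1 : ℝ) 1, s ^ (2 ^ j) ≤ a + g.eval s + g.eval (-s)) :
    ∃ (c : K → Fin r), IsLocallyConstant c ∧ (∀ k v, c (D.τ k v) = c v + k) ∧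
      ∃ hd : Continuous (G.diagVal c (Polynomial.X ^ (2 ^ j))),
        ∀ S : C(K, ℝ) →ₗ[ℝ] ℝ, IsInv G S →
          S ⟨G.diagVal c (Polynomial.X ^ (2 ^ j)), hd⟩
            ≤ 2 ^ (2 ^ j) * ((a + 2 * (B + 3 * ε)) * S 1) := by
  classical
  set M := 2 ^ j with hM
  set N := max g.natDegree M with hN
  obtain ⟨c, hc, hcE, hpot⟩ := colour_all D hr hη hε hg (le_max_left _ M) hb hB
  refine ⟨c, hc, hcE, ?_⟩
  have hct := pot_continuous G (hc.comp fun d => some (d, true)) N (Polynomial.X ^ M)
  have ef : G.diagVal c (Polynomial.X ^ M)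
      = fun ψ => 2 ^ M * pot G r N (fun v => some (c v, true)) (Polynomial.X ^ M) ψ := by
    funext ψ
    rw [pot_finished G (le_max_right g.natDegree M) c ψ, ← mul_assoc, ← mul_pow]
    norm_num
  have hd : Continuous (G.diagVal c (Polynomial.X ^ M)) := ef ▸ continuous_const.mul hct
  refine ⟨hd, fun S hS => ?_⟩
  have hcol := hc.comp (fun d => some (d, false) : Fin r → Option (Fin r × Bool))
  have h1 := remove_all G hj (le_max_right g.natDegree M) hc hS
  have h2 := hS.mono
    (f := ⟨pot G r N (fun v => some (c v, false)) (Polynomial.X ^ M), pot_continuous G hcol N _⟩)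
    (g := a • (1 : C(K, ℝ))
      + (2 : ℝ) • ⟨pot G r N (fun v => some (c v, false)) g, pot_continuous G hcol N g⟩)
    (fun ψ => by
      refine (pot_mono G N _ (g' := Polynomial.C a + g + g.comp (-Polynomial.X))
        (fun s hs => by simpa using ha s hs) ψ).trans ?_
      rw [pot_add, pot_add, pot_C, pot_reflect G N (fun v d => by simp) g ψ]
      simp only [ContinuousMap.add_apply, ContinuousMap.smul_apply, ContinuousMap.one_apply,
        ContinuousMap.coe_mk, smul_eq_mul]
      linarith)
  rw [map_add, map_smul, map_smul, smul_eq_mul, smul_eq_mul] at h2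
  have h3 := hpot S hS
  have e : (⟨G.diagVal c (Polynomial.X ^ M), hd⟩ : C(K, ℝ))
      = (2 : ℝ) ^ M • ⟨pot G r N (fun v => some (c v, true)) (Polynomial.X ^ M), hct⟩ := by
    ext ψ; simp [ef]
  rw [e, map_smul, smul_eq_mul]
  refine mul_le_mul_of_nonneg_left ?_ (by positivity)
  refine (h1.trans h2).trans ?_
  nlinarith

end Vale.Agent.P078.Sharp
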