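import Vale.Agent.P078.Sharp.Engine
import Vale.Agent.P078.Assembly.Trunc
import Vale.Agent.P078.Mix.Main

/-!
# An even moment small at scale `4 / √r`, and truncation at `16 / √r`
-/

namespace Vale.Agent.P078.Sharp

open ComplexInnerProductSpace
open Filter Topology
open Vale.Agent.P078 Vale.Agent.P078.Transfer Vale.Agent.P078.Mss2 Vale.Agent.P078.General
open Vale.Agent.P078.Finite
open Vale.Agent.P078.Mss (NumBound)

universe u

/-- A polynomial imitating the smoothed indicator. -/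
lemma exists_imitates {z₀ η ε : ℝ} (hη : 0 < η) (hε : 0 < ε) :
    ∃ g : Polynomial ℝ, Imitates g z₀ η ε := by
  have hc : Continuous (fun t : ℝ => η / ((t - z₀) ^ 2 + η ^ 2)) := by
    refine continuous_const.div (by fun_prop) (fun t => ?_)
    positivity
  obtain ⟨q, hq⟩ := exists_polynomial_near_of_continuousOn (-1) 1 _ hc.continuousOn ε hε
  set g₀ := antideriv q
  refine ⟨g₀ + Polynomial.C (smoothStep z₀ η 0 - g₀.eval 0), fun t ht => ?_⟩
  set g := g₀ + Polynomial.C (smoothStep z₀ η 0 - g₀.eval 0) with hg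
  have hd : g.derivative = q := by simp [g, g₀, derivative_antideriv]
  have hdiff : ∀ s : ℝ, |s| ≤ 1 → |g.derivative.eval s - η / ((s - z₀) ^ 2 + η ^ 2)| ≤ ε :=
    fun s hs => by rw [hd]; exact (hq s (abs_le.1 hs)).le
  refine ⟨hdiff t ht, ?_⟩
  have h0 : g.eval 0 - smoothStep z₀ η 0 = 0 := by simp [g]
  have := Convex.norm_image_sub_le_of_norm_hasDerivWithin_le
    (f := fun s => g.eval s - smoothStep z₀ η s)
    (f' := fun s => g.derivative.eval s - η / ((s - z₀) ^ 2 + η ^ 2))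
    (s := Set.Icc (-1 : ℝ) 1) (C := ε)
    (fun s _ => ((g.hasDerivAt s).sub (hasDerivAt_smoothStep hη s)).hasDerivWithinAt)
    (fun s hs => by rw [Real.norm_eq_abs]; exact hdiff s (abs_le.2 ⟨hs.1, hs.2⟩))
    (convex_Icc _ _) (show (0 : ℝ) ∈ Set.Icc (-1 : ℝ) 1 by norm_num) (abs_le.1 ht)
  simp only [Real.norm_eq_abs, h0, sub_zero] at this
  nlinarith

lemma smoothStep_nonneg (z₀ η t : ℝ) : 0 ≤ smoothStep z₀ η t := by
  have := Real.neg_pi_div_two_lt_arctan ((t - z₀) / η)
  simp only [smoothStep]; linarith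

lemma smoothStep_above {z₀ η t : ℝ} (hη : 0 < η) (ht : z₀ ≤ t) : 1 ≤ smoothStep z₀ η t := by
  have := Real.arctan_nonneg.2 (div_nonneg (by linarith : (0:ℝ) ≤ t - z₀) hη.le)
  simp only [smoothStep]; linarith [Real.two_le_pi]

lemma smoothStep_below {z₀ η b t : ℝ} (hη : 0 < η) (hb : b < z₀) (ht : t ≤ b) :
    smoothStep z₀ η t ≤ η / (z₀ - b) := by
  set y := (z₀ - t) / η with hy
  have hy0 : 0 < y := div_pos (by linarith) hη
  have h1 : smoothStep z₀ η t = Real.arctan y⁻¹ := by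
    rw [Real.arctan_inv_of_pos hy0, smoothStep, show (t - z₀) / η = -y by rw [hy]; ring,
      Real.arctan_neg]
    ring
  have hy1 : 0 < y⁻¹ := inv_pos.2 hy0
  have h2 : Real.arctan y⁻¹ < y⁻¹ := by
    have := Real.lt_tan (Real.arctan_pos.2 hy1) (Real.arctan_lt_pi_div_two _)
    rwa [Real.tan_arctan] at this
  rw [h1]
  refine h2.le.trans ?_
  rw [hy, inv_div]
  exact div_le_div_of_nonneg_left hη.le (by linarith) (by linarith)

variable {K : Type u} [TopologicalSpace K] [CompactSpace K] [T2Space K] [TotallySeparatedSpace K]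
variable [DecidableEq K] {r : ℕ} [NeZero r] {G : GraphModel K}

/-- An equivariant colouring with a small moment of order `2 ^ j`. -/
theorem exists_small_moment (D : SeedData (r := r) G) (hr : 2 ≤ r) {j : ℕ} (hj : 1 ≤ j) {δ : ℝ}
    (hδ : 0 < δ) :
    ∃ (c : K → Fin r), IsLocallyConstant c ∧ (∀ k v, c (D.τ k v) = c v + k) ∧
      ∃ hd : Continuous (G.diagVal c (Polynomial.X ^ (2 ^ j))),
        ∀ S : C(K, ℝ) →ₗ[ℝ] ℝ, IsInv G S →
          S ⟨G.diagVal c (Polynomial.X ^ (2 ^ j)), hd⟩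
            ≤ ((8 / Real.sqrt r) ^ (2 ^ j) + δ) * S 1 := by
  have hsr : 0 < Real.sqrt r := Real.sqrt_pos.2 (by exact_mod_cast (by omega : 0 < r))
  set z₀ := 4 / Real.sqrt r with hz₀
  have hgap : 3 / Real.sqrt r < z₀ := div_lt_div_of_pos_right (by norm_num) hsr
  set M := 2 ^ j with hM
  set ε := δ / (12 * 2 ^ M) with hε'
  have hε : 0 < ε := by positivity
  set η' := ε * (z₀ - 3 / Real.sqrt r) with hη'
  have hη'0 : 0 < η' := mul_pos hε (by linarith)
  obtain ⟨g, hg⟩ := exists_imitates (z₀ := z₀) hη'0 hε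
  set b := 3 / Real.sqrt r with hb
  have hB : ∀ t ∈ Set.Icc (-1 : ℝ) b, g.eval t ≤ 2 * ε ∨ 1 < |t| := by
    intro t ht
    by_cases h1 : |t| ≤ 1
    · left
      have h2 := (abs_le.1 (hg t h1).2).2
      have h3 := smoothStep_below hη'0 hgap ht.2
      rw [show η' / (z₀ - b) = ε by
        rw [hη', mul_div_assoc, div_self (by linarith : z₀ - b ≠ 0), mul_one]] at h3
      linarith
    · exact Or.inr (not_le.1 h1)
  by_cases hb1 : b ≤ 1
  swap
  · -- very few colours: the trivial bound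
    obtain ⟨c, hc, hcE, -⟩ := colour_all D hr hη'0 hε hg (le_refl g.natDegree)
      (b := max b 1) (B := g.natDegree + ∑ k ∈ Finset.range (g.natDegree + 1), |g.coeff k| *
        (max b 1) ^ k) (le_max_left _ _) (fun s hs => by
        rw [Polynomial.eval_eq_sum_range]
        refine le_trans (Finset.sum_le_sum (fun k _ => ?_)) (le_add_of_nonneg_left (Nat.cast_nonneg _))
        refine (le_abs_self _).trans ?_
        rw [abs_mul, abs_pow]
        refine mul_le_mul_of_nonneg_left (pow_le_pow_left₀ (abs_nonneg _) ?_ _) (abs_nonneg _)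
        exact abs_le.2 ⟨by linarith [hs.1, le_max_right b 1], hs.2⟩)
    refine ⟨c, hc, hcE, ?_⟩
    have hct := pot_continuous G (hc.comp fun d => some (d, true)) M (Polynomial.X ^ M)
    have ef : G.diagVal c (Polynomial.X ^ M)
        = fun ψ => 2 ^ M * pot G r M (fun v => some (c v, true)) (Polynomial.X ^ M) ψ := by
      funext ψ
      rw [pot_finished G le_rfl c ψ, ← mul_assoc, ← mul_pow]
      norm_num
    refine ⟨ef ▸ continuous_const.mul hct, fun S hS => ?_⟩
    have hle := hS.mono (g := ((8 / Real.sqrt r) ^ M + δ) • (1 : C(K, ℝ)))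
      (f := ⟨G.diagVal c (Polynomial.X ^ M), ef ▸ continuous_const.mul hct⟩) (fun ψ => by
        simp only [ContinuousMap.coe_mk, ContinuousMap.smul_apply, ContinuousMap.one_apply,
          smul_eq_mul, mul_one, ef]
        have h1 := pot_le G M (fun v => some (c v, true)) (g := Polynomial.X ^ M) (C := 1)
          (fun s hs => by
            rw [Polynomial.eval_pow, Polynomial.eval_X]
            refine (le_abs_self _).trans ?_
            rw [abs_pow]
            exact pow_le_one₀ (abs_nonneg _) (abs_le.2 hs)) ψ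
        have h2 : (2 : ℝ) ^ M ≤ (8 / Real.sqrt r) ^ M := pow_le_pow_left₀ (by norm_num) (by
          rw [hb] at hb1
          push Not at hb1
          rw [lt_div_iff₀ hsr, one_mul] at hb1
          rw [le_div_iff₀ hsr]; linarith) M
        nlinarith [mul_le_mul_of_nonneg_left h1 (by positivity : (0:ℝ) ≤ 2 ^ M)])
    rwa [map_smul, smul_eq_mul] at hle
  obtain ⟨c, hc, hcE, hd, hbound⟩ := engine D hr hη'0 hε hg (b := b) (B := 2 * ε) le_rfl
    (fun t ht => (hB t ht).resolve_right (not_lt.2 (abs_le.2 ⟨ht.1, ht.2.trans hb1⟩))) hj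
    (a := z₀ ^ M + 2 * ε) (fun s hs => by
      have hs1 : |s| ≤ 1 := abs_le.2 hs
      have h1 := (abs_le.1 (hg s hs1).2).1
      have h2 := (abs_le.1 (hg (-s) (by rwa [abs_neg])).2).1
      have h3 := smoothStep_nonneg z₀ η' s
      have h4 := smoothStep_nonneg z₀ η' (-s)
      have heven : s ^ M = |s| ^ M := ((Nat.even_pow.2 ⟨even_two, by omega⟩).pow_abs s).symm
      rw [heven]
      rcases le_or_gt |s| z₀ with h | h
      · have := pow_le_pow_left₀ (abs_nonneg s) h M
        linarith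
      · have h6 : |s| ^ M ≤ 1 := pow_le_one₀ (abs_nonneg _) hs1
        have h7 : 0 ≤ z₀ ^ M := by positivity
        rcases abs_cases s with ⟨e, -⟩ | ⟨e, -⟩
        · have := smoothStep_above hη'0 (e ▸ h.le)
          linarith
        · have := smoothStep_above hη'0 (e ▸ h.le)
          linarith)
  refine ⟨c, hc, hcE, hd, fun S hS => (hbound S hS).trans (le_of_eq ?_)⟩
  rw [show (8 : ℝ) / Real.sqrt r = 2 * z₀ by rw [hz₀]; ring, mul_pow, hε']
  field_simp
  ring

variable {H : Type u} [NormedAddCommGroup H] [InnerProductSpace ℂ H] [CompleteSpace H]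
variable {M₀ : VonNeumannAlgebra H} {A : StarSubalgebra ℂ (H →L[ℂ] H)} {Ω : H}

/-- A small even moment makes the truncation close. -/
theorem truncate (h : FinSetting M₀ A Ω) {S : H →L[ℂ] H} (hS : IsSelfAdjoint S) {t ρ δ : ℝ} (ht : 0 < t)
    (hρ : 0 ≤ ρ) (m : ℕ)
    (hmom : (⟪Ω, (S ^ (2 * (m + 1))) Ω⟫).re ≤ ((ρ * t) ^ (2 * (m + 1)) + δ) * ‖Ω‖ ^ 2) :
    ‖(S - cfc (clamp t) S) Ω‖ ^ 2
      ≤ (t ^ 2 * ρ ^ (2 * (m + 1)) + δ / t ^ (2 * m)) * ‖Ω‖ ^ 2 := by
  have h1 := clamp_bound h hS ht m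
  have h2 : ‖(S ^ (m + 1)) Ω‖ ^ 2 = (⟪Ω, (S ^ (2 * (m + 1))) Ω⟫).re := by
    have e : (S ^ (2 * (m + 1))) Ω = (S ^ (m + 1)) ((S ^ (m + 1)) Ω) := by
      rw [two_mul, pow_add]; rfl
    rw [e, ← sa_inner (hS.pow (m + 1)), @norm_sq_eq_re_inner ℂ]
    rfl
  rw [h2] at h1
  have h3 := h1.trans hmom
  refine le_of_mul_le_mul_left (h3.trans (le_of_eq ?_)) (pow_pos (pow_pos ht m) 2)
  have ht0 : t ≠ 0 := ht.ne'
  field_simp
  ring

end Vale.Agent.P078.Sharp
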