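import Vale.Agent.P078.Sharp.Transport
import Vale.Agent.P078.Mss2.Signed

/-!
# The potential of a marking

The potential at a point is the root measure at that point, computed in a window, paired with a
polynomial.
-/

namespace Vale.Agent.P078.Sharp

open Finset Filter Topology
open Vale.Agent.P078.Transfer Vale.Agent.P078.Mss2
open Vale.Agent.P078.Mss (NumBound)

universe u

variable {K : Type u} [DecidableEq K] {r : ℕ}

/-- The polynomial functional of the pointed cumulants at one set. -/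
noncomputable def pterm {R : ℕ} (X : Fin R → Matrix K K ℂ) (p : K → Fin R → ℝ) (g : Polynomial ℝ)
    (ψ : K) (S : Finset K) : ℝ :=
  ∑ k ∈ Finset.range (g.natDegree + 1), g.coeff k * (pkap X p ψ k S).re

section basic

variable {R : ℕ} {X : Fin R → Matrix K K ℂ} {p q : K → Fin R → ℝ}

lemma pterm_congr {g : Polynomial ℝ} {ψ : K} {S : Finset K} (h : ∀ v ∈ S, p v = q v) :
    pterm X p g ψ S = pterm X q g ψ S :=
  Finset.sum_congr rfl (fun k _ => by rw [pkap_congr (fun _ _ _ _ _ => rfl) h k])

lemma kapPoly_congr {g : Polynomial ℝ} {S : Finset K} (h : ∀ v ∈ S, p v = q v) :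
    kapPoly X p g S = kapPoly X q g S :=
  Finset.sum_congr rfl (fun k _ => by
    rw [kappa_of_acoef (fun T hT j => acoef_congr (fun _ _ _ _ _ => rfl)
      (fun v hv => h v (hT hv)) j) k])

lemma sum_pterm (hp : ∀ v, ∑ c, p v c = 1) (g : Polynomial ℝ) (S : Finset K) :
    ∑ ψ ∈ S, pterm X p g ψ S = kapPoly X p g S + if S.card = 1 then g.coeff 0 else 0 := by
  simp only [pterm, kapPoly]
  rw [Finset.sum_comm]
  simp only [← Finset.mul_sum, ← Complex.re_sum, sum_pkap hp, Complex.add_re, mul_add,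
    Finset.sum_add_distrib]
  congr 1
  rw [Finset.sum_eq_single 0]
  · split_ifs with h1 h2 h2 <;> simp_all
  · intro k _ hk; simp [hk]
  · simp

lemma pterm_support {nb : K → Finset K} (hb : Banded X nb) (hp : ∀ v, ∑ c, p v c = 1)
    {g : Polynomial ℝ} {N : ℕ} (hN : g.natDegree ≤ N) {ψ : K} {S : Finset K}
    (h : pterm X p g ψ S ≠ 0) : ψ ∈ S ∧ S ⊆ nball nb N ψ := by
  obtain ⟨k, hk, hne⟩ := Finset.exists_ne_zero_of_sum_ne_zero h
  have hne' : pkap X p ψ k S ≠ 0 := fun h0 => hne (by simp [h0])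
  obtain ⟨h1, h2⟩ := pkap_support hp hb hne'
  exact ⟨h1, h2.trans (nball_mono hb (by have := Finset.mem_range.1 hk; omega) ψ)⟩

lemma sum_window {β : Type*} [AddCommMonoid β] (U : Finset K) (F : Finset K → β) :
    ∑ S ∈ U.powerset, F S
      = ∑ T : Finset {v // v ∈ U}, F (T.map (Function.Embedding.subtype _)) := by
  symm
  refine Finset.sum_nbij' (fun T => T.map (Function.Embedding.subtype _))
    (fun S => S.subtype (fun v => v ∈ U)) ?_ ?_ ?_ ?_ (fun _ _ => rfl)
  · intro T _
    simp only [Finset.mem_coe, Finset.mem_powerset]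
    exact Finset.map_subtype_subset T
  · intro S _; simp
  · intro T _; ext a; simp
  · intro S hS
    exact Finset.subtype_map_of_mem (fun v hv => Finset.mem_powerset.1 hS hv)

/-- The pointed cumulants only see the coefficients. -/
lemma pkap_of_acoef' {R' : ℕ} {X' : Fin R' → Matrix K K ℂ} {p' : K → Fin R' → ℝ} {S : Finset K}
    (h : ∀ T ⊆ S, ∀ j, acoef X p j T = acoef X' p' j T) (ψ : K) (k : ℕ) :
    pkap X p ψ k S = pkap X' p' ψ k S := by
  induction k using Nat.strong_induction_on generalizing S with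
  | h k ih =>
    rw [pkap_eq, pkap_eq]
    congr 1
    · unfold bcoef
      rw [h _ (Finset.erase_subset _ _)]
    refine Finset.sum_congr rfl (fun i hi => Finset.sum_congr rfl (fun a ha => ?_))
    simp only [Finset.mem_filter, Finset.mem_product, Finset.mem_powerset] at ha
    rw [ih i (Finset.mem_range.1 hi) (fun T hT => h T (hT.trans ha.1.1)), h _ ha.1.2]

end basic

variable [TopologicalSpace K] (G : GraphModel K)

/-- The potential at a point, computed in the window of radius `N`. -/
noncomputable def pot (r N : ℕ) (m : K → Option (Fin r × Bool)) (g : Polynomial ℝ) (ψ : K) : ℝ :=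
  ∑ S ∈ (nball G.nbhd N ψ).powerset, pterm (tk r G.x) (claw m) g ψ S

/-- The window of radius `N` as a type. -/
abbrev Win (N : ℕ) (ψ : K) : Type u := {v // v ∈ nball G.nbhd N ψ}

/-- The kernel in a window. -/
noncomputable def winX (N : ℕ) (ψ : K) : Matrix (Win G N ψ) (Win G N ψ) ℂ :=
  G.x.submatrix Subtype.val Subtype.val

lemma winX_bound (N : ℕ) (ψ : K) : NumBound (winX G N ψ) 1 := G.x_bound _

/-- The centre of a window. -/
def centre (N : ℕ) (ψ : K) : Win G N ψ := ⟨ψ, mem_nball_self (banded (r := 0) G) N ψ⟩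

lemma sub_tk {W : Type*} (ι : W → K) : Mss2.sub (tk r G.x) ι = tk r (G.x.submatrix ι ι) := rfl

lemma pot_eq_localVal [NeZero r] (N : ℕ) (m : K → Option (Fin r × Bool)) (g : Polynomial ℝ)
    (ψ : K) :
    pot G r N m g ψ
      = localVal (tk r (winX G N ψ)) (claw fun i : Win G N ψ => m i.1) (centre G N ψ) g := by
  rw [pot, sum_window, localVal]
  simp only [pterm]
  rw [Finset.sum_comm]
  refine Finset.sum_congr rfl (fun k _ => ?_)
  rw [moment, Complex.re_sum, Finset.mul_sum]
  refine Finset.sum_congr rfl (fun T _ => ?_)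
  exact congrArg (fun z : ℂ => g.coeff k * z.re) (pkap_map (claw_sum m)
    (Function.Embedding.subtype (fun v => v ∈ nball G.nbhd N ψ)) (centre G N ψ) k T)

lemma pot_eq_range (N : ℕ) (m : K → Option (Fin r × Bool)) {g : Polynomial ℝ} {M : ℕ}
    (hM : g.natDegree ≤ M) (ψ : K) :
    pot G r N m g ψ = ∑ S ∈ (nball G.nbhd N ψ).powerset,
      ∑ k ∈ Finset.range (M + 1), g.coeff k * (pkap (tk r G.x) (claw m) ψ k S).re := by
  refine Finset.sum_congr rfl (fun S _ => ?_)
  refine Finset.sum_subset (Finset.range_mono (by omega)) (fun k _ hk => ?_)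
  rw [Polynomial.coeff_eq_zero_of_natDegree_lt (by simp at hk; omega), zero_mul]

lemma pot_add (N : ℕ) (m : K → Option (Fin r × Bool)) (g g' : Polynomial ℝ) (ψ : K) :
    pot G r N m (g + g') ψ = pot G r N m g ψ + pot G r N m g' ψ := by
  rw [pot_eq_range G N m (M := max g.natDegree g'.natDegree) (Polynomial.natDegree_add_le g g'),
    pot_eq_range G N m (le_max_left g.natDegree g'.natDegree),
    pot_eq_range G N m (le_max_right g.natDegree g'.natDegree), ← Finset.sum_add_distrib]
  refine Finset.sum_congr rfl (fun S _ => ?_)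
  rw [← Finset.sum_add_distrib]
  exact Finset.sum_congr rfl (fun k _ => by rw [Polynomial.coeff_add]; ring)

lemma pot_neg (N : ℕ) (m : K → Option (Fin r × Bool)) (g : Polynomial ℝ) (ψ : K) :
    pot G r N m (-g) ψ = -pot G r N m g ψ := by
  simp [pot, pterm, Polynomial.natDegree_neg]

/-- The potential is at most the maximum of the polynomial on `[-1, 1]`. -/
theorem pot_le [NeZero r] (N : ℕ) (m : K → Option (Fin r × Bool)) {g : Polynomial ℝ} {C : ℝ}
    (hC : ∀ s ∈ Set.Icc (-1 : ℝ) 1, g.eval s ≤ C) (ψ : K) : pot G r N m g ψ ≤ C := by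
  haveI := neZero_options (r := r)
  rw [pot_eq_localVal]
  refine pointed_bound (tk_bound (winX_bound G N ψ)) (claw_nonneg _) (claw_sum _) (fun w hw => ?_) hC
  exact (mix_stable (tk_bound (winX_bound G N ψ)) (Mss2.sidePlane 1 (Or.inl rfl)) (claw_nonneg _)
    (claw_sum _) Finset.univ (fun _ _ => (w : ℂ))
    (fun _ _ => by simp [Mss2.sidePlane, Mss.HalfPlane.ht]; linarith) (fun _ => ∅)
    (fun _ => Finset.disjoint_empty_right _)).1

/-- Monotonicity in the polynomial. -/
theorem pot_mono [NeZero r] (N : ℕ) (m : K → Option (Fin r × Bool)) {g g' : Polynomial ℝ}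
    (h : ∀ s ∈ Set.Icc (-1 : ℝ) 1, g.eval s ≤ g'.eval s) (ψ : K) :
    pot G r N m g ψ ≤ pot G r N m g' ψ := by
  have := pot_le G N m (g := g + -g') (C := 0) (fun s hs => by simp; linarith [h s hs]) ψ
  rw [pot_add, pot_neg] at this
  linarith

lemma pot_C [NeZero r] (N : ℕ) (m : K → Option (Fin r × Bool)) (a : ℝ) (ψ : K) :
    pot G r N m (Polynomial.C a) ψ = a := by
  refine le_antisymm (pot_le G N m (fun s _ => by simp) ψ) ?_
  have := pot_le G N m (g := -Polynomial.C a) (C := -a) (fun s _ => by simp) ψ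
  rw [pot_neg] at this
  linarith

/-- Before any vertex is finished the potential is symmetric. -/
theorem pot_reflect [NeZero r] (N : ℕ) {m : K → Option (Fin r × Bool)}
    (hm : ∀ v c, m v ≠ some (c, true)) (g : Polynomial ℝ) (ψ : K) :
    pot G r N m (g.comp (-Polynomial.X)) ψ = pot G r N m g ψ := by
  have hd : (g.comp (-Polynomial.X)).natDegree = g.natDegree := by
    simp [Polynomial.natDegree_comp]
  simp only [pot, pterm, hd]
  refine Finset.sum_congr rfl (fun S _ => Finset.sum_congr rfl (fun k _ => ?_))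
  have e : (g.comp (-Polynomial.X)).coeff k = (-1) ^ k * g.coeff k := by
    rw [show (-Polynomial.X : Polynomial ℝ) = Polynomial.C (-1) * Polynomial.X by simp,
      Polynomial.comp_C_mul_X_coeff]
    ring
  have h2 := congrArg Complex.re (pkap_neg G.x hm ψ k S)
  rw [e]
  rcases Nat.even_or_odd k with hk | hk
  · simp [hk.neg_one_pow]
  · rw [hk.neg_one_pow] at h2 ⊢
    simp only [neg_mul, one_mul, Complex.neg_re] at h2
    have : (pkap (tk r G.x) (claw m) ψ k S).re = 0 := by linarith
    simp [this]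

/-- The potential of the empty marking. -/
theorem pot_none_le (hr : 2 ≤ r) (N : ℕ) {g : Polynomial ℝ} {b C : ℝ}
    (hb : 3 / Real.sqrt r ≤ b) (hC : ∀ s ∈ Set.Icc (-1 : ℝ) b, g.eval s ≤ C) (ψ : K) :
    pot G r N (fun _ => none) g ψ ≤ C := by
  haveI : NeZero r := ⟨by omega⟩
  haveI := neZero_options (r := r)
  rw [pot_eq_localVal]
  exact pointed_bound (tk_bound (winX_bound G N ψ)) (claw_nonneg _) (claw_sum _)
    (fun w hw => start_pos hr (winX_bound G N ψ) (fun i => G.x_diag i.1) (hb.trans hw.le)) hC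

lemma wpow_window (N : ℕ) (c : K → Fin r) (ψ : K) :
    ∀ (k j : ℕ) (χ φ : Win G N ψ), χ.1 ∈ nball G.nbhd j ψ → j + k ≤ N →
      G.wpow c k χ.1 φ.1
        = (pinched (fun _ => winX G N ψ) (fun i : Win G N ψ => c i.1) ^ k) χ φ := by
  intro k
  induction k with
  | zero =>
    intro j χ φ _ _
    rw [pow_zero, Matrix.one_apply]
    by_cases h : χ = φ
    · subst h; simp [GraphModel.wpow]
    · simp [GraphModel.wpow, h, Subtype.ext_iff.not.1 h]
  | succ k ih =>
    intro j χ φ hχ hjk
    have hsub : G.nbhd χ.1 ⊆ nball G.nbhd N ψ := fun v hv =>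
      nball_mono (banded (r := r) G) (show j + 1 ≤ N by omega) ψ
        (Finset.mem_biUnion.2 ⟨χ.1, hχ, hv⟩)
    have hzero : ∀ v, v ∉ G.nbhd χ.1 → G.x χ.1 v = 0 := fun v hv => by
      by_contra h
      exact hv ((mem_nbhd G).2 (Or.inr (G.x_band χ.1 v h)))
    rw [GraphModel.wpow, pow_succ', Matrix.mul_apply, Finset.sum_subset hsub (fun v _ hv => by
      simp [hzero v hv]), ← Finset.sum_coe_sort]
    refine Finset.sum_congr rfl (fun v _ => ?_)
    by_cases hv : v.1 ∈ G.nbhd χ.1
    · rw [ih (j + 1) v φ (Finset.mem_biUnion.2 ⟨χ.1, hχ, hv⟩) (by omega)]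
      simp [pinched, winX]
    · simp [hzero v.1 hv, pinched, winX]

/-- The potential of a finished marking on a monomial is a scaled moment of the pinched kernel. -/
theorem pot_finished [NeZero r] {N k : ℕ} (hk : k ≤ N) (c : K → Fin r) (ψ : K) :
    pot G r N (fun v => some (c v, true)) (Polynomial.X ^ k) ψ
      = (1 / 2) ^ k * G.diagVal c (Polynomial.X ^ k) ψ := by
  haveI := neZero_options (r := r)
  set W := Win G N ψ
  set H : Fin r → Matrix W W ℂ := fun _ => (1 / 2 : ℂ) • winX G N ψ with hH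
  have hmom : ∀ i, moment (tk r (winX G N ψ)) (claw fun v : W => some (c v.1, true)) (centre G N ψ) i
      = moment H (Mss2.law fun v : W => some (c v.1)) (centre G N ψ) i := fun i =>
    Finset.sum_congr rfl (fun T _ => pkap_of_acoef'
      (fun T' _ j => acoef_finished (winX G N ψ) (fun v : W => c v.1) j T') (centre G N ψ) i)
  have hp : pinched H (fun v : W => c v.1)
      = (1 / 2 : ℂ) • pinched (fun _ => winX G N ψ) (fun v : W => c v.1) := by
    refine Matrix.ext (fun i l => ?_)
    simp only [pinched, H, Matrix.smul_apply, Matrix.of_apply]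
    split_ifs <;> simp
  rw [pot_eq_localVal, localVal, GraphModel.diagVal, Polynomial.natDegree_X_pow, Finset.mul_sum]
  refine Finset.sum_congr rfl (fun i hi => ?_)
  rw [Polynomial.coeff_X_pow]
  split_ifs with hik
  swap
  · simp
  subst hik
  rw [hmom, moment_full, hp, smul_pow, Matrix.smul_apply,
    ← wpow_window G N c ψ i 0 (centre G N ψ) (centre G N ψ)
      (by simp [centre, nball]) (by omega), smul_eq_mul,
    show (1 / 2 : ℂ) ^ i = (((1 / 2 : ℝ) ^ i : ℝ) : ℂ) by push_cast; rfl, Complex.re_ofReal_mul]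
  simp [centre]

variable [T2Space K]

lemma claw_locallyConstant {m : K → Option (Fin r × Bool)} (hm : IsLocallyConstant m) :
    IsLocallyConstant (claw m) := hm.comp markLaw

theorem pot_continuous [NeZero r] {m : K → Option (Fin r × Bool)} (hm : IsLocallyConstant m)
    (N : ℕ) (g : Polynomial ℝ) : Continuous (pot G r N m g) :=
  continuous_local_sum G N [] (fun ψ S => pterm (tk r G.x) (claw m) g ψ S) (fun ψ₀ T hT =>
    tendsto_finsetSum _ (fun k _ => ((Complex.continuous_re.continuousAt.comp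
      ((pattern_continuous G (claw_sum m) (claw_locallyConstant hm) hT k).2 [])).const_mul
        (g.coeff k))))

lemma kapPoly_continuousAt [NeZero r] {m : K → Option (Fin r × Bool)} (hm : IsLocallyConstant m)
    (g : Polynomial ℝ) {ψ₀ : K} {T : Finset (List (Fin G.L))}
    (hT : Set.InjOn (fun w => act G.h w ψ₀) T) :
    ContinuousAt (fun ψ => kapPoly (tk r G.x) (claw m) g (T.image (fun w => act G.h w ψ))) ψ₀ :=
  tendsto_finsetSum _ (fun k _ => ((Complex.continuous_re.continuousAt.comp
    (pattern_continuous G (claw_sum m) (claw_locallyConstant hm) hT k).1).const_mul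
      (g.coeff k)))

/-- The change of the cumulant functional in the double window around a point. -/
noncomputable def localDiff (r N : ℕ) (m m' : K → Option (Fin r × Bool)) (g : Polynomial ℝ)
    (φ : K) : ℝ :=
  ∑ S ∈ (nball G.nbhd (N + N) φ).powerset,
    (kapPoly (tk r G.x) (claw m') g S - kapPoly (tk r G.x) (claw m) g S)

lemma localDiff_continuous [NeZero r] {m m' : K → Option (Fin r × Bool)}
    (hm : IsLocallyConstant m) (hm' : IsLocallyConstant m') (N : ℕ) (g : Polynomial ℝ) :
    Continuous (localDiff G r N m m' g) :=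
  continuous_local_sum G (N + N) [] (fun _ S =>
    kapPoly (tk r G.x) (claw m') g S - kapPoly (tk r G.x) (claw m) g S)
    (fun _ _ hT => (kapPoly_continuousAt G hm' g hT).sub (kapPoly_continuousAt G hm g hT))

/-- Marks changed on a separated set: the potential changes by the local differences. -/
theorem batch_change [NeZero r] {N : ℕ} {g : Polynomial ℝ} (hN : g.natDegree ≤ N)
    {m m' : K → Option (Fin r × Bool)} (hm : IsLocallyConstant m) (hm' : IsLocallyConstant m')
    {Z : Set K} (hZ : IsClopen Z) (hout : ∀ v, v ∉ Z → m' v = m v)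
    (hsep : ∀ φ ∈ Z, ∀ χ ∈ Z, χ ∈ nball G.nbhd (N + N) φ → χ = φ) {e : ℝ}
    (hloc : ∀ φ ∈ Z, localDiff G r N m m' g φ ≤ e) (S₀ : C(K, ℝ) →ₗ[ℝ] ℝ)
    (hpos : ∀ f : C(K, ℝ), (∀ ψ, 0 ≤ f ψ) → 0 ≤ S₀ f)
    (hinv : ∀ (i : Fin G.L) (f : C(K, ℝ)), S₀ (f.comp ⟨G.h i, G.h_cont i⟩) = S₀ f) :
    S₀ ⟨pot G r N m' g, pot_continuous G hm' N g⟩
      ≤ S₀ ⟨pot G r N m g, pot_continuous G hm N g⟩
        + e * S₀ ⟨Z.indicator (fun _ => 1), continuous_const.indicator (by simp [hZ.frontier_eq])⟩ := by
  classical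
  let G₀ : GraphModel K := { G with T := S₀, T_pos := hpos, T_inv := hinv }
  have hb : Banded (tk r G.x) G.nbhd := banded G
  have houtl : ∀ v, v ∉ Z → claw m' v = claw m v := fun v hv => by simp [claw, hout v hv]
  set D : K → Finset K → ℝ := fun ψ S =>
    pterm (tk r G.x) (claw m') g ψ S - pterm (tk r G.x) (claw m) g ψ S with hD
  have hDsupp : ∀ {ψ S}, D ψ S ≠ 0 → ψ ∈ S ∧ S ⊆ nball G.nbhd N ψ ∧ ∃ φ ∈ S, φ ∈ Z := by
    intro ψ S h
    have h3 : ∃ φ ∈ S, φ ∈ Z := by
      by_contra hno
      push Not at hno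
      exact h (sub_eq_zero.2 (pterm_congr (fun v hv => houtl v (hno v hv))))
    by_cases h0 : pterm (tk r G.x) (claw m') g ψ S = 0
    · have h1 : pterm (tk r G.x) (claw m) g ψ S ≠ 0 := fun h1 => h (by simp [D, h0, h1])
      obtain ⟨a, b⟩ := pterm_support hb (claw_sum m) hN h1
      exact ⟨a, b, h3⟩
    · obtain ⟨a, b⟩ := pterm_support hb (claw_sum m') hN h0
      exact ⟨a, b, h3⟩
  set F : K → K → ℝ := fun ψ φ => if φ ∈ Z then
    ∑ S ∈ (nball G.nbhd N ψ).powerset, (if φ ∈ S then D ψ S else 0) else 0 with hF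
  have hZev : ∀ ψ₀ : K, ∀ᶠ ψ in 𝓝 ψ₀, (ψ ∈ Z ↔ ψ₀ ∈ Z) := by
    intro ψ₀
    by_cases h : ψ₀ ∈ Z
    · filter_upwards [hZ.isOpen.mem_nhds h] with ψ hψ; exact iff_of_true hψ h
    · filter_upwards [hZ.compl.isOpen.mem_nhds h] with ψ hψ; exact iff_of_false hψ h
  have hpc : ∀ (M : K → Option (Fin r × Bool)) (_ : IsLocallyConstant M) (ψ₀ : K)
      (T : Finset (List (Fin G.L))), Set.InjOn (fun w => act G.h w ψ₀) T →
      ContinuousAt (fun ψ => pterm (tk r G.x) (claw M) g ψ (T.image fun w => act G.h w ψ)) ψ₀ :=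
    fun M hM ψ₀ T hT => tendsto_finsetSum _ (fun k _ => ((Complex.continuous_re.continuousAt.comp
      ((pattern_continuous G (claw_sum M) (claw_locallyConstant hM) hT k).2 [])).const_mul
        (g.coeff k)))
  have hFc : ∀ w : List (Fin G.L), Continuous (fun ψ => F ψ (act G.h w ψ)) := by
    intro w
    have hs : Continuous (fun ψ => ∑ S ∈ (nball G.nbhd N (act G.h [] ψ)).powerset,
        (if act G.h w ψ ∈ S then D ψ S else 0)) := by
      refine continuous_local_sum G N [] (fun ψ S => if act G.h w ψ ∈ S then D ψ S else 0)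
        (fun ψ₀ T hT => ?_)
      have hev : ∀ᶠ ψ in 𝓝 ψ₀, (act G.h w ψ ∈ T.image (fun v => act G.h v ψ) ↔
          act G.h w ψ₀ ∈ T.image (fun v => act G.h v ψ₀)) := by
        filter_upwards [(eventually_all_finset T).2 (fun v _ => eventually_act_iff G v w ψ₀)]
          with ψ hψ
        simp only [Finset.mem_image]
        exact exists_congr fun v => and_congr_right fun hv => hψ v hv
      by_cases h : act G.h w ψ₀ ∈ T.image (fun v => act G.h v ψ₀)
      · exact (continuousAt_congr (hev.mono fun ψ hψ => if_pos (hψ.2 h))).2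
          ((hpc m' hm' ψ₀ T hT).sub (hpc m hm ψ₀ T hT))
      · exact continuousAt_of_eventually_const (b := 0)
          (hev.mono fun ψ hψ => if_neg (fun h' => h (hψ.1 h')))
    refine continuous_iff_continuousAt.2 (fun ψ₀ => ?_)
    have hw := (act_continuous G w).continuousAt.eventually (hZev (act G.h w ψ₀))
    by_cases h : act G.h w ψ₀ ∈ Z
    · exact (continuousAt_congr (hw.mono fun ψ hψ => if_pos (hψ.2 h))).2 hs.continuousAt
    · exact continuousAt_of_eventually_const (b := 0)
        (hw.mono fun ψ hψ => if_neg (fun h' => h (hψ.1 h')))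
  obtain ⟨h1, h2, hT⟩ := transport G₀ N F hFc
  -- the change of the potential is the mass sent out
  have hleft : (⟨pot G r N m' g, pot_continuous G hm' N g⟩ : C(K, ℝ))
      - ⟨pot G r N m g, pot_continuous G hm N g⟩ = ⟨_, h1⟩ := by
    ext ψ
    change pot G r N m' g ψ - pot G r N m g ψ = ∑ φ ∈ nball G.nbhd N ψ, F ψ φ
    simp only [pot, ← Finset.sum_sub_distrib, F]
    have e : ∀ φ, (if φ ∈ Z then ∑ S ∈ (nball G.nbhd N ψ).powerset,
          (if φ ∈ S then D ψ S else 0) else 0)
        = ∑ S ∈ (nball G.nbhd N ψ).powerset, (if φ ∈ Z ∧ φ ∈ S then D ψ S else 0) := fun φ => by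
      split_ifs with h <;> simp [h]
    simp only [e]
    rw [Finset.sum_comm]
    refine Finset.sum_congr rfl (fun S hS => ?_)
    change D ψ S = _
    by_cases hz : D ψ S = 0
    · simp [hz]
    obtain ⟨-, -, φ₀, hφ₀S, hφ₀Z⟩ := hDsupp hz
    have hS' := Finset.mem_powerset.1 hS
    rw [Finset.sum_eq_single φ₀]
    · rw [if_pos ⟨hφ₀Z, hφ₀S⟩]
    · intro φ hφ hne
      refine if_neg (fun h => hne ?_)
      exact hsep φ₀ hφ₀Z φ h.1 (nball_trans (nball_symm hb (hS' hφ₀S)) (hS' h.2))
    · exact fun h => absurd (hS' hφ₀S) h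
  -- the mass received is the local difference
  have hright : ∀ φ, ∑ ψ ∈ nball G.nbhd N φ, F ψ φ ≤ e * Z.indicator (fun _ => (1 : ℝ)) φ := by
    intro φ
    by_cases hφ : φ ∈ Z
    swap
    · simp [F, hφ]
    have eF : ∀ ψ, F ψ φ
        = ∑ S ∈ (nball G.nbhd N ψ).powerset, (if φ ∈ S then D ψ S else 0) := fun ψ => if_pos hφ
    set U := nball G.nbhd (N + N) φ with hU
    have step1 : ∀ ψ ∈ nball G.nbhd N φ,
        F ψ φ = ∑ S ∈ U.powerset, (if φ ∈ S then D ψ S else 0) := by
      intro ψ hψ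
      rw [eF]
      refine Finset.sum_subset (Finset.powerset_mono.2 (fun v hv => nball_trans hψ hv))
        (fun S _ hS => ?_)
      split_ifs
      · by_contra hne
        exact hS (Finset.mem_powerset.2 (hDsupp hne).2.1)
      · rfl
    rw [Finset.sum_congr rfl step1, Finset.sum_comm]
    have step2 : ∀ S ∈ U.powerset, (∑ ψ ∈ nball G.nbhd N φ, if φ ∈ S then D ψ S else 0)
        = kapPoly (tk r G.x) (claw m') g S - kapPoly (tk r G.x) (claw m) g S := by
      intro S hS
      have hSU := Finset.mem_powerset.1 hS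
      by_cases hφS : φ ∈ S
      · simp only [hφS, if_true]
        have e1 : ∑ ψ ∈ nball G.nbhd N φ, D ψ S = ∑ ψ ∈ S, D ψ S := by
          refine (Finset.sum_subset (Finset.inter_subset_left (s₂ := S))
            (fun ψ ha hb' => ?_)).symm.trans
            (Finset.sum_subset (Finset.inter_subset_right (s₁ := nball G.nbhd N φ))
              (fun ψ ha hb' => ?_))
          · by_contra hne
            exact hb' (Finset.mem_inter.2 ⟨ha, (hDsupp hne).1⟩)
          · by_contra hne
            exact hb' (Finset.mem_inter.2 ⟨nball_symm hb ((hDsupp hne).2.1 hφS), ha⟩)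
        rw [e1, Finset.sum_sub_distrib, sum_pterm (claw_sum m'), sum_pterm (claw_sum m)]
        ring
      · rw [kapPoly_congr (p := claw m') (q := claw m) (fun v hv => ?_), sub_self]
        · simp [hφS]
        · exact houtl v (fun h => hφS (hsep φ hφ v h (hSU hv) ▸ hv))
    rw [Finset.sum_congr rfl step2, Set.indicator_of_mem hφ, mul_one]
    exact hloc φ hφ
  have hle : G₀.T ⟨_, h2⟩ ≤ G₀.T (e • ⟨Z.indicator (fun _ => 1),
      continuous_const.indicator (by simp [hZ.frontier_eq])⟩) :=
    T_le G₀ (fun φ => by simp only [ContinuousMap.smul_apply, smul_eq_mul]; exact hright φ)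
  rw [← hT] at hle
  change S₀ _ ≤ S₀ _ at hle
  have e2 := congrArg S₀ hleft
  rw [map_sub] at e2
  rw [map_smul, smul_eq_mul] at hle
  have e3 : S₀ (⟨_, h1⟩ : C(K, ℝ)) = S₀ ⟨pot G r N m' g, pot_continuous G hm' N g⟩
      - S₀ ⟨pot G r N m g, pot_continuous G hm N g⟩ := e2.symm
  linarith [hle, e3]

end Vale.Agent.P078.Sharp
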