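import Vale.Agent.P078.Sharp.Pot

/-!
# A cyclic symmetry of a seeded graph model
-/

namespace Vale.Agent.P078.Sharp

open Finset Filter Topology
open Vale.Agent.P078.Transfer Vale.Agent.P078.Mss2

universe u

variable {K : Type u} [TopologicalSpace K] {r : ℕ}

/-- A free cyclic symmetry of a graph model, with a seed which it shifts. -/
structure SeedData [NeZero r] (G : GraphModel K) where
  τ : Fin r → K → K
  τ_cont : ∀ k, Continuous (τ k)
  τ_zero : ∀ ψ, τ 0 ψ = ψ
  τ_add : ∀ k l ψ, τ k (τ l ψ) = τ (k + l) ψ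
  τ_h : ∀ i k ψ, G.h i (τ k ψ) = τ k (G.h i ψ)
  τ_x : ∀ k a b, G.x (τ k a) (τ k b) = G.x a b
  sd : K → Fin r
  sd_loc : IsLocallyConstant sd
  sd_τ : ∀ k ψ, sd (τ k ψ) = sd ψ + k
  free : ∀ (w : List (Fin G.L)) k ψ, act G.h w ψ = τ k ψ → k = 0

variable [NeZero r] {G : GraphModel K} (D : SeedData (r := r) G)

lemma SeedData.τ_neg (k : Fin r) (ψ : K) : D.τ (-k) (D.τ k ψ) = ψ := by
  rw [D.τ_add, neg_add_cancel, D.τ_zero]

lemma SeedData.τ_neg' (k : Fin r) (ψ : K) : D.τ k (D.τ (-k) ψ) = ψ := by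
  rw [D.τ_add, add_neg_cancel, D.τ_zero]

lemma SeedData.act_τ (w : List (Fin G.L)) (k : Fin r) (ψ : K) :
    act G.h w (D.τ k ψ) = D.τ k (act G.h w ψ) := by
  induction w generalizing ψ with
  | nil => rfl
  | cons i w ih =>
    change act G.h w (G.h i (D.τ k ψ)) = _
    rw [D.τ_h, ih]
    rfl

/-- The symmetry as an embedding. -/
def SeedData.emb (k : Fin r) : K ↪ K :=
  ⟨D.τ k, fun a b h => by rw [← D.τ_neg k a, h, D.τ_neg]⟩

/-- Shifting the colour of a mark. -/
def shiftMark (k : Fin r) : Option (Fin r × Bool) → Option (Fin r × Bool) :=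
  Option.map fun q => (q.1 + k, q.2)

/-- The permutation of the options induced by a shift of the colours. -/
def shiftOpt (k : Fin r) : Fin (r * 3) ≃ Fin (r * 3) :=
  (finProdFinEquiv.symm.trans ((Equiv.addRight k).prodCongr (Equiv.refl (Fin 3)))).trans
    finProdFinEquiv

@[simp] lemma shiftOpt_mk (k c : Fin r) (t : Fin 3) :
    shiftOpt k (finProdFinEquiv (c, t)) = finProdFinEquiv (c + k, t) := by
  simp only [shiftOpt, Equiv.trans_apply, Equiv.symm_apply_apply]
  rfl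

lemma markLaw_shift (k : Fin r) (mk : Option (Fin r × Bool)) (o : Fin (r * 3)) :
    markLaw (shiftMark k mk) (shiftOpt k o) = markLaw mk o := by
  obtain ⟨⟨c, t⟩, rfl⟩ := finProdFinEquiv.surjective o
  rcases mk with _ | ⟨d, _ | _⟩
  · simp [shiftMark, markLaw, freeLaw, actLaw]
  · simp [shiftMark, markLaw, actLaw]
  · simp [shiftMark, markLaw, finLaw]

/-- Renaming the options does not change the coefficients. -/
lemma acoef_perm {V : Type*} [DecidableEq V] {R : ℕ} (X : Fin R → Matrix V V ℂ)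
    (p : V → Fin R → ℝ) (π : Fin R ≃ Fin R) (j : ℕ) (T : Finset V) :
    acoef (fun o => X (π o)) (fun v o => p v (π o)) j T = acoef X p j T := by
  classical
  unfold acoef ecoef
  split_ifs
  swap
  · rfl
  simp only [mix]
  rw [← (Equiv.arrowCongr (Equiv.refl {v // v ∈ T}) π.symm).sum_comp]
  refine Finset.sum_congr rfl (fun f _ => ?_)
  simp only [Equiv.arrowCongr_apply, Equiv.coe_refl, Equiv.refl_symm, Function.comp_def, id_eq,
    Equiv.apply_symm_apply]
  congr 1
  rw [← π.symm.prod_comp]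
  refine Finset.prod_congr rfl (fun o _ => ?_)
  simp [Mss2.sub, π.symm.injective.eq_iff]

variable [DecidableEq K]

lemma SeedData.nbhd_τ (k : Fin r) (ψ : K) : G.nbhd (D.τ k ψ) = (G.nbhd ψ).map (D.emb k) := by
  have e : ∀ v, D.emb k v = D.τ k v := fun _ => rfl
  ext φ
  simp only [mem_nbhd, Finset.mem_map, e]
  constructor
  · rintro (rfl | ⟨i, rfl⟩)
    · exact ⟨ψ, Or.inl rfl, rfl⟩
    · exact ⟨G.h i ψ, Or.inr ⟨i, rfl⟩, (D.τ_h i k ψ).symm⟩
  · rintro ⟨χ, hχ | ⟨i, rfl⟩, rfl⟩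
    · exact Or.inl (by rw [hχ])
    · exact Or.inr ⟨i, D.τ_h i k ψ⟩

lemma SeedData.nball_τ (k : Fin r) (n : ℕ) (ψ : K) :
    nball G.nbhd n (D.τ k ψ) = (nball G.nbhd n ψ).map (D.emb k) := by
  induction n with
  | zero => rw [nball, nball, Finset.map_singleton]; rfl
  | succ n ih =>
    simp only [nball, ih]
    ext φ
    simp only [Finset.mem_biUnion, Finset.mem_map]
    constructor
    · rintro ⟨_, ⟨v, hv, rfl⟩, hφ⟩
      change φ ∈ G.nbhd (D.τ k v) at hφ
      rw [D.nbhd_τ] at hφ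
      obtain ⟨χ, hχ, rfl⟩ := Finset.mem_map.1 hφ
      exact ⟨χ, ⟨v, hv, hχ⟩, rfl⟩
    · rintro ⟨χ, ⟨v, hv, hχ⟩, rfl⟩
      refine ⟨_, ⟨v, hv, rfl⟩, ?_⟩
      change _ ∈ G.nbhd (D.τ k v)
      rw [D.nbhd_τ]
      exact Finset.mem_map_of_mem _ hχ

/-- An equivariant marking has equivariant local differences. -/
lemma SeedData.localDiff_τ (N : ℕ) {m m₁ m₂ : K → Option (Fin r × Bool)}
    (hm : ∀ k v, m (D.τ k v) = shiftMark k (m v)) (k : Fin r)
    {φ : K} (h12 : ∀ v ∈ nball G.nbhd (N + N) φ, m₂ (D.τ k v) = shiftMark k (m₁ v))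
    (g : Polynomial ℝ) :
    localDiff G r N m m₂ g (D.τ k φ) = localDiff G r N m m₁ g φ := by
  unfold localDiff
  rw [D.nball_τ]
  symm
  refine Finset.sum_bij (fun S _ => S.map (D.emb k))
    (fun S hS => Finset.mem_powerset.2 (Finset.map_subset_map.2 (Finset.mem_powerset.1 hS)))
    (fun S _ T _ h => Finset.map_injective _ h) (fun T hT => ?_) (fun S hS => ?_)
  · obtain ⟨S, hS, rfl⟩ := Finset.subset_map_iff.1 (Finset.mem_powerset.1 hT)
    exact ⟨S, Finset.mem_powerset.2 hS, rfl⟩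
  have key : ∀ {M M' : K → Option (Fin r × Bool)}, (∀ v ∈ S, M' (D.τ k v) = shiftMark k (M v)) →
      kapPoly (tk r G.x) (claw M') g (S.map (D.emb k)) = kapPoly (tk r G.x) (claw M) g S := by
    intro M M' hMM
    refine Finset.sum_congr rfl (fun i _ => ?_)
    rw [kappa_map (claw_sum M')]
    refine congrArg (fun z : ℂ => g.coeff i * z.re) (kappa_of_acoef (fun T hT j => ?_) i)
    rw [← acoef_perm _ _ (shiftOpt k) j T]
    refine acoef_congr (fun o a _ b _ => ?_) (fun v hv => ?_) j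
    · obtain ⟨⟨c, t⟩, rfl⟩ := finProdFinEquiv.surjective o
      simp only [Mss2.sub, tk, okind_mk, shiftOpt_mk, Matrix.submatrix_apply, Matrix.smul_apply]
      rw [show ∀ v, D.emb k v = D.τ k v from fun _ => rfl, show ∀ v, D.emb k v = D.τ k v from fun _ => rfl, D.τ_x]
    · funext o
      change markLaw (M' (D.τ k v)) _ = markLaw (M v) o
      rw [hMM v (hT hv), markLaw_shift]
  have hS' := Finset.mem_powerset.1 hS
  rw [key (fun v hv => h12 v (hS' hv)), key (fun v _ => hm k v)]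

end Vale.Agent.P078.Sharp
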