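import Vale.Agent.P078.Sharp.Words

/-!
# Mass transport on a graph model, and windows
-/

namespace Vale.Agent.P078.Sharp

open Finset Filter Topology
open Vale.Agent.P078.Transfer Vale.Agent.P078.Mss2

universe u

variable {K : Type u} [TopologicalSpace K] [DecidableEq K] (G : GraphModel K)

omit [DecidableEq K] in
/-- The functional is invariant under words. -/
lemma T_act (w : List (Fin G.L)) (f : C(K, ℝ)) :
    G.T (f.comp ⟨act G.h w, act_continuous G w⟩) = G.T f := by
  induction w generalizing f with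
  | nil => rfl
  | cons i w ih =>
    have e : f.comp ⟨act G.h (i :: w), act_continuous G (i :: w)⟩
        = (f.comp ⟨act G.h w, act_continuous G w⟩).comp ⟨G.h i, G.h_cont i⟩ := rfl
    rw [e, G.T_inv, ih]

omit [DecidableEq K] in
lemma T_le {f g : C(K, ℝ)} (h : ∀ ψ, f ψ ≤ g ψ) : G.T f ≤ G.T g := by
  have := G.T_pos (g - f) (fun ψ => by simp [h ψ])
  rw [map_sub] at this
  linarith

/-- `i` is the first index of a word taking `ψ` to this point. -/
def IsFirst (N : ℕ) (i : Fin (words G.L N).length) (ψ : K) : Prop :=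
  ∀ j, j < i → act G.h (words G.L N)[j] ψ ≠ act G.h (words G.L N)[i] ψ

instance (N : ℕ) (i : Fin (words G.L N).length) (ψ : K) : Decidable (IsFirst G N i ψ) :=
  inferInstanceAs (Decidable (∀ j, j < i → _ ≠ _))

lemma sum_ball_eq (N : ℕ) (ψ : K) (F : K → ℝ) :
    ∑ φ ∈ nball G.nbhd N ψ, F φ
      = ∑ i, if IsFirst G N i ψ then F (act G.h (words G.L N)[i] ψ) else 0 := by
  rw [← Finset.sum_filter]
  symm
  refine Finset.sum_bij (fun i _ => act G.h (words G.L N)[i] ψ) ?_ ?_ ?_ (fun _ _ => rfl)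
  · exact fun i _ => (mem_ball_iff G N).2 ⟨_, List.getElem_mem _, rfl⟩
  · intro i hi j hj h
    rcases lt_trichotomy i j with h' | h' | h'
    · exact absurd h ((Finset.mem_filter.1 hj).2 i h')
    · exact h'
    · exact absurd h.symm ((Finset.mem_filter.1 hi).2 j h')
  · intro φ hφ
    obtain ⟨w, hw, hwφ⟩ := (mem_ball_iff G N).1 hφ
    obtain ⟨n, hn, hnw⟩ := List.getElem_of_mem hw
    have hne : (Finset.univ.filter
        (fun i : Fin (words G.L N).length => act G.h (words G.L N)[i] ψ = φ)).Nonempty :=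
      ⟨⟨n, hn⟩, by simp [hnw, hwφ]⟩
    refine ⟨Finset.min' _ hne, ?_, (Finset.mem_filter.1 (Finset.min'_mem _ hne)).2⟩
    simp only [Finset.mem_filter, Finset.mem_univ, true_and]
    intro j hj he
    have hm : j ∈ Finset.univ.filter
        (fun i : Fin (words G.L N).length => act G.h (words G.L N)[i] ψ = φ) :=
      Finset.mem_filter.2 ⟨Finset.mem_univ j,
        he.trans (Finset.mem_filter.1 (Finset.min'_mem _ hne)).2⟩
    exact absurd (Finset.min'_le _ j hm) (not_le.2 hj)

lemma sum_ball_reverse (N : ℕ) (φ : K) (F : K → ℝ) :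
    ∑ ψ ∈ nball G.nbhd N φ, F ψ
      = ∑ i, if IsFirst G N i (act G.h (words G.L N)[i].reverse φ)
          then F (act G.h (words G.L N)[i].reverse φ) else 0 := by
  rw [← Finset.sum_filter]
  symm
  refine Finset.sum_bij (fun i _ => act G.h (words G.L N)[i].reverse φ) ?_ ?_ ?_ (fun _ _ => rfl)
  · intro i _
    refine nball_symm (banded (r := 1) G) ((mem_ball_iff G N).2 ⟨(words G.L N)[i], List.getElem_mem _, ?_⟩)
    exact act_reverse' G _ φ
  · intro i hi j hj h
    rcases lt_trichotomy i j with h' | h' | h'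
    · refine absurd ?_ ((Finset.mem_filter.1 hj).2 i h')
      rw [← h, act_reverse', h, act_reverse']
    · exact h'
    · refine absurd ?_ ((Finset.mem_filter.1 hi).2 j h')
      rw [h, act_reverse', ← h, act_reverse']
  · intro ψ hψ
    obtain ⟨w, hw, hwφ⟩ := (mem_ball_iff G N).1 (nball_symm (banded (r := 1) G) hψ)
    obtain ⟨n, hn, hnw⟩ := List.getElem_of_mem hw
    have hne : (Finset.univ.filter
        (fun i : Fin (words G.L N).length => act G.h (words G.L N)[i] ψ = φ)).Nonempty :=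
      ⟨⟨n, hn⟩, by simp [hnw, hwφ]⟩
    have hi := (Finset.mem_filter.1 (Finset.min'_mem _ hne)).2
    have e : act G.h (words G.L N)[Finset.min' _ hne].reverse φ = ψ := by
      conv_lhs => arg 3; rw [← hi]
      exact act_reverse G _ ψ
    refine ⟨Finset.min' _ hne, ?_, e⟩
    simp only [Finset.mem_filter, Finset.mem_univ, true_and]
    rw [e]
    intro j hj he
    have hm : j ∈ Finset.univ.filter
        (fun i : Fin (words G.L N).length => act G.h (words G.L N)[i] ψ = φ) :=
      Finset.mem_filter.2 ⟨Finset.mem_univ j, he.trans hi⟩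
    exact absurd (Finset.min'_le _ j hm) (not_le.2 hj)

variable [T2Space K]

/-- Mass transport. -/
theorem transport (N : ℕ) (F : K → K → ℝ)
    (hF : ∀ w : List (Fin G.L), Continuous (fun ψ => F ψ (act G.h w ψ))) :
    ∃ (h1 : Continuous (fun ψ => ∑ φ ∈ nball G.nbhd N ψ, F ψ φ))
      (h2 : Continuous (fun φ => ∑ ψ ∈ nball G.nbhd N φ, F ψ φ)),
      G.T ⟨_, h1⟩ = G.T ⟨_, h2⟩ := by
  let f : Fin (words G.L N).length → K → ℝ := fun i ψ =>
    if IsFirst G N i ψ then F ψ (act G.h (words G.L N)[i] ψ) else 0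
  have hf : ∀ i, Continuous (f i) := by
    intro i
    refine continuous_iff_continuousAt.2 (fun ψ₀ => ?_)
    have hev : ∀ᶠ ψ in 𝓝 ψ₀, (IsFirst G N i ψ ↔ IsFirst G N i ψ₀) := by
      filter_upwards [eventually_all.2 (fun j : Fin (words G.L N).length =>
        eventually_act_iff G (words G.L N)[j] (words G.L N)[i] ψ₀)] with ψ hψ
      exact forall_congr' (fun j => imp_congr_right (fun _ => not_congr (hψ j)))
    by_cases h : IsFirst G N i ψ₀
    · refine (continuousAt_congr (hev.mono fun ψ hψ => ?_)).2 (hF (words G.L N)[i]).continuousAt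
      exact if_pos (hψ.2 h)
    · exact continuousAt_of_eventually_const (b := 0)
        (hev.mono fun ψ hψ => if_neg (fun h' => h (hψ.1 h')))
  have e1 : (fun ψ => ∑ φ ∈ nball G.nbhd N ψ, F ψ φ) = fun ψ => ∑ i, f i ψ :=
    funext fun ψ => sum_ball_eq G N ψ (F ψ)
  have e2 : (fun φ => ∑ ψ ∈ nball G.nbhd N φ, F ψ φ)
      = fun φ => ∑ i, f i (act G.h (words G.L N)[i].reverse φ) := by
    funext φ
    rw [sum_ball_reverse G N φ (fun ψ => F ψ φ)]
    refine Finset.sum_congr rfl (fun i _ => ?_)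
    simp only [f, act_reverse']
  have h1 : Continuous (fun ψ => ∑ φ ∈ nball G.nbhd N ψ, F ψ φ) := by
    rw [e1]; exact continuous_finsetSum _ (fun i _ => hf i)
  have h2 : Continuous (fun φ => ∑ ψ ∈ nball G.nbhd N φ, F ψ φ) := by
    rw [e2]; exact continuous_finsetSum _ (fun i _ => (hf i).comp (act_continuous G _))
  refine ⟨h1, h2, ?_⟩
  have s1 : (⟨_, h1⟩ : C(K, ℝ)) = ∑ i, (⟨f i, hf i⟩ : C(K, ℝ)) := by
    ext ψ; simp [congrFun e1 ψ]
  have s2 : (⟨_, h2⟩ : C(K, ℝ)) = ∑ i, (⟨f i, hf i⟩ : C(K, ℝ)).comp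
      ⟨act G.h (words G.L N)[i].reverse, act_continuous G _⟩ := by
    ext φ; simp [congrFun e2 φ]
  rw [s1, s2, map_sum, map_sum]
  exact Finset.sum_congr rfl (fun i _ => (T_act G _ _).symm)

end Vale.Agent.P078.Sharp
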