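import Vale.Agent.P078.Transfer.Model
import Vale.Agent.P078.Mss2.Signed

/-!
# Balls as images of words, and continuity of local sums
-/

namespace Vale.Agent.P078.Sharp

open Finset Filter Topology
open Vale.Agent.P078.Transfer Vale.Agent.P078.Mss2
open Vale.Agent.P078.Mss (NumBound minorMat)

universe u

variable {K : Type u} [TopologicalSpace K]

lemma act_append {L : ℕ} (h : Fin L → K → K) (v w : List (Fin L)) (ψ : K) :
    act h (v ++ w) ψ = act h w (act h v ψ) := by
  induction v generalizing ψ with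
  | nil => rfl
  | cons i v ih => exact ih (h i ψ)

variable (G : GraphModel K)

lemma act_continuous (w : List (Fin G.L)) : Continuous (act G.h w) := by
  induction w with
  | nil => exact continuous_id
  | cons i w ih => exact ih.comp (G.h_cont i)

lemma act_reverse (w : List (Fin G.L)) (ψ : K) : act G.h w.reverse (act G.h w ψ) = ψ := by
  induction w generalizing ψ with
  | nil => rfl
  | cons i w ih =>
    rw [List.reverse_cons, act_append]
    change act G.h [i] (act G.h w.reverse (act G.h w (G.h i ψ))) = ψ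
    rw [ih]
    exact G.h_inv i ψ

lemma act_reverse' (w : List (Fin G.L)) (ψ : K) : act G.h w (act G.h w.reverse ψ) = ψ := by
  have := act_reverse G w.reverse ψ
  rwa [List.reverse_reverse] at this

/-- All words of length at most `N`. -/
def words (L : ℕ) : ℕ → List (List (Fin L))
  | 0 => [[]]
  | N + 1 => words L N ++ (words L N).flatMap (fun w => (List.finRange L).map (fun i => w ++ [i]))

variable {r : ℕ} [DecidableEq K]

omit [TopologicalSpace K] in
lemma mem_image_words {L : ℕ} (h : Fin L → K → K) (l : List (List (Fin L))) (ψ φ : K) :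
    φ ∈ (l.map (fun w => act h w ψ)).toFinset ↔ ∃ w ∈ l, act h w ψ = φ := by simp

lemma mem_nbhd {ψ φ : K} : φ ∈ G.nbhd ψ ↔ φ = ψ ∨ ∃ i, G.h i ψ = φ := by
  unfold GraphModel.nbhd
  simp only [Finset.mem_insert, Finset.mem_image, Finset.mem_univ, true_and]

lemma banded : Banded (tk r G.x) G.nbhd where
  refl ψ := (mem_nbhd G).2 (Or.inl rfl)
  symm ψ φ h := by
    rw [mem_nbhd] at h ⊢
    rcases h with h | ⟨i, rfl⟩
    · exact Or.inl h.symm
    · exact Or.inr ⟨i, G.h_inv i ψ⟩
  supp o ψ φ h := (mem_nbhd G).2 (Or.inr (G.x_band ψ φ (fun h0 => h (by simp [tk, h0]))))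

lemma mem_ball_iff (N : ℕ) {ψ φ : K} :
    φ ∈ nball G.nbhd N ψ ↔ ∃ w ∈ words G.L N, act G.h w ψ = φ := by
  induction N generalizing φ with
  | zero => simp [nball, words, act, eq_comm]
  | succ N ih =>
    simp only [nball, Finset.mem_biUnion, ih, mem_nbhd, words, List.mem_append, List.mem_flatMap,
      List.mem_map, List.mem_finRange, true_and]
    constructor
    · rintro ⟨χ, ⟨w, hw, rfl⟩, rfl | ⟨i, rfl⟩⟩
      · exact ⟨w, Or.inl hw, rfl⟩
      · exact ⟨w ++ [i], Or.inr ⟨w, hw, i, rfl⟩, act_append _ _ _ _⟩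
    · rintro ⟨w, hw | ⟨v, hv, i, rfl⟩, rfl⟩
      · exact ⟨_, ⟨w, hw, rfl⟩, Or.inl rfl⟩
      · exact ⟨_, ⟨v, hv, rfl⟩, Or.inr ⟨i, by rw [act_append]; rfl⟩⟩

variable [T2Space K]

lemma eventually_act_iff (v w : List (Fin G.L)) (ψ₀ : K) :
    ∀ᶠ ψ in 𝓝 ψ₀, (act G.h v ψ = act G.h w ψ ↔ act G.h v ψ₀ = act G.h w ψ₀) := by
  by_cases h : act G.h v ψ₀ = act G.h w ψ₀
  · filter_upwards [(G.fix_open v w).mem_nhds h] with ψ hψ
    exact iff_of_true hψ h
  · filter_upwards [(isClosed_eq (act_continuous G v) (act_continuous G w)).isOpen_compl.mem_nhds h]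
      with ψ hψ
    exact iff_of_false hψ h

omit [T2Space K] [DecidableEq K] in
/-- Locally constant data are continuous. -/
lemma continuousAt_of_eventually_const {β : Type*} [TopologicalSpace β] {f : K → β} {ψ₀ : K}
    {b : β} (h : ∀ᶠ ψ in 𝓝 ψ₀, f ψ = b) : ContinuousAt f ψ₀ :=
  (continuousAt_congr (h.mono fun _ hψ => hψ)).2 continuousAt_const

/-- A sum over the finite subsets of a ball is continuous if it is so on every fixed pattern. -/
theorem continuous_local_sum (N : ℕ) (u : List (Fin G.L)) (Φ : K → Finset K → ℝ)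
    (hΦ : ∀ (ψ₀ : K) (T : Finset (List (Fin G.L))),
      Set.InjOn (fun w => act G.h w ψ₀) T →
      ContinuousAt (fun ψ => Φ ψ (T.image (fun w => act G.h w ψ))) ψ₀) :
    Continuous (fun ψ => ∑ S ∈ (nball G.nbhd N (act G.h u ψ)).powerset, Φ ψ S) := by
  classical
  refine continuous_iff_continuousAt.2 (fun ψ₀ => ?_)
  set Wd : Finset (List (Fin G.L)) := ((words G.L N).map (fun w => u ++ w)).toFinset with hWd
  have hball : ∀ ψ, nball G.nbhd N (act G.h u ψ) = Wd.image (fun w => act G.h w ψ) := by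
    intro ψ
    ext φ
    simp [mem_ball_iff, Wd, act_append]
  have hex : ∀ φ ∈ Wd.image (fun w => act G.h w ψ₀), ∃ w ∈ Wd, act G.h w ψ₀ = φ :=
    fun φ hφ => Finset.mem_image.1 hφ
  choose rep hrep hrepe using hex
  set W0 := (Wd.image (fun w => act G.h w ψ₀)).attach.image (fun φ => rep φ.1 φ.2) with hW0
  have hW0sub : W0 ⊆ Wd := by
    intro w hw
    obtain ⟨φ, -, rfl⟩ := Finset.mem_image.1 hw
    exact hrep _ _
  have hinj : Set.InjOn (fun w => act G.h w ψ₀) (W0 : Set (List (Fin G.L))) := by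
    intro a ha b hb hab
    obtain ⟨φ, -, rfl⟩ := Finset.mem_image.1 ha
    obtain ⟨χ, -, rfl⟩ := Finset.mem_image.1 hb
    simp only [hrepe] at hab
    rw [show φ = χ from Subtype.ext hab]
  have hev : ∀ᶠ ψ in 𝓝 ψ₀, ∀ a ∈ Wd, ∀ b ∈ Wd,
      (act G.h a ψ = act G.h b ψ ↔ act G.h a ψ₀ = act G.h b ψ₀) :=
    (eventually_all_finset Wd).2 (fun a _ => (eventually_all_finset Wd).2
      (fun b _ => eventually_act_iff G a b ψ₀))
  have heq : ∀ᶠ ψ in 𝓝 ψ₀, ∑ S ∈ (nball G.nbhd N (act G.h u ψ)).powerset, Φ ψ S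
      = ∑ T ∈ W0.powerset, Φ ψ (T.image (fun w => act G.h w ψ)) := by
    filter_upwards [hev] with ψ hψ
    have himg : Wd.image (fun w => act G.h w ψ) = W0.image (fun w => act G.h w ψ) := by
      refine le_antisymm (fun φ hφ => ?_) (Finset.image_subset_image hW0sub)
      obtain ⟨a, ha, rfl⟩ := Finset.mem_image.1 hφ
      have hm : act G.h a ψ₀ ∈ Wd.image (fun w => act G.h w ψ₀) := Finset.mem_image_of_mem _ ha
      refine Finset.mem_image.2 ⟨rep _ hm,
        Finset.mem_image.2 ⟨⟨_, hm⟩, Finset.mem_attach _ _, rfl⟩, ?_⟩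
      exact (hψ _ (hrep _ _) _ ha).2 (hrepe _ _)
    have hinjψ : Set.InjOn (fun w => act G.h w ψ) (W0 : Set (List (Fin G.L))) :=
      fun a ha b hb hab => hinj ha hb ((hψ a (hW0sub ha) b (hW0sub hb)).1 hab)
    rw [hball, himg, Finset.powerset_image, Finset.sum_image]
    intro T hT T' hT' h
    simp only [Finset.mem_coe, Finset.mem_powerset] at hT hT'
    simp only at h
    ext a
    constructor
    · intro ha
      obtain ⟨b, hb, e⟩ := Finset.mem_image.1 (h ▸ Finset.mem_image_of_mem _ ha :
        act G.h a ψ ∈ T'.image (fun w => act G.h w ψ))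
      exact hinjψ (hT' hb) (hT ha) e ▸ hb
    · intro ha
      obtain ⟨b, hb, e⟩ := Finset.mem_image.1 (h.symm ▸ Finset.mem_image_of_mem _ ha :
        act G.h a ψ ∈ T.image (fun w => act G.h w ψ))
      exact hinjψ (hT hb) (hT' ha) e ▸ hb
  refine (continuousAt_congr heq).2 (tendsto_finsetSum _ (fun T hT => hΦ ψ₀ T ?_))
  exact hinj.mono (by simpa using Finset.mem_powerset.1 hT)

lemma mix_continuous {W : Type*} [Fintype W] [DecidableEq W] {r : ℕ} (p : W → Fin r → ℝ)
    (R : Finset W) : Continuous (fun Y : Fin r → Matrix W W ℂ => mix Y p 0 R (fun _ => ∅)) := by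
  refine continuous_finsetSum _ (fun f _ => continuous_const.mul ?_)
  refine continuous_finsetProd _ (fun c _ => Continuous.matrix_det ?_)
  refine continuous_matrix (fun i j => ?_)
  simp only [minorMat, Matrix.of_apply]
  split_ifs <;> fun_prop

lemma ecoef_continuous {W : Type*} [DecidableEq W] {r : ℕ} (p : W → Fin r → ℝ) (R : Finset W) :
    Continuous (fun Y : Fin r → Matrix W W ℂ => ecoef Y p R) :=
  (mix_continuous (fun v : {v // v ∈ R} => p v.1) Finset.univ).comp
    (continuous_pi fun c => (continuous_apply c).matrix_submatrix _ _)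

lemma kappa_continuous {W : Type*} [DecidableEq W] {r : ℕ} (p : W → Fin r → ℝ) (k : ℕ) :
    ∀ S : Finset W, Continuous (fun Y : Fin r → Matrix W W ℂ => kappa Y p k S) := by
  induction k using Nat.strong_induction_on with
  | h k ih =>
    intro S
    have ha : ∀ j T, Continuous (fun Y : Fin r → Matrix W W ℂ => acoef Y p j T) := fun j T => by
      unfold acoef; split_ifs
      · exact ecoef_continuous p T
      · exact continuous_const
    simp only [fun Y => kappa_eq Y p k S, uconv]
    refine (continuous_const.mul (ha _ _)).sub (continuous_finsetSum _ (fun i hi =>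
      continuous_finsetSum _ (fun a _ => (ih i (Finset.mem_range.1 hi) _).mul (ha _ _))))

lemma pkap_continuous {W : Type*} [DecidableEq W] {r : ℕ} (p : W → Fin r → ℝ) (a : W) (k : ℕ) :
    ∀ S : Finset W, Continuous (fun Y : Fin r → Matrix W W ℂ => pkap Y p a k S) := by
  induction k using Nat.strong_induction_on with
  | h k ih =>
    intro S
    have ha : ∀ j T, Continuous (fun Y : Fin r → Matrix W W ℂ => acoef Y p j T) := fun j T => by
      unfold acoef; split_ifs
      · exact ecoef_continuous p T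
      · exact continuous_const
    simp only [fun Y : Fin r → Matrix W W ℂ => pkap_eq (x := Y) (p := p) (ψ := a) k S, uconv, bcoef]
    refine Continuous.sub ?_ (continuous_finsetSum _ (fun i hi =>
      continuous_finsetSum _ (fun b _ => (ih i (Finset.mem_range.1 hi) _).mul (ha _ _))))
    split_ifs
    · exact ha _ _
    · exact continuous_const

/-- Cumulants along a fixed pattern are continuous, for locally constant laws. -/
theorem pattern_continuous {p : K → Fin (r * 3) → ℝ} (hp : ∀ v, ∑ c, p v c = 1)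
    (hloc : IsLocallyConstant p) {ψ₀ : K} {T : Finset (List (Fin G.L))}
    (hT : Set.InjOn (fun w => act G.h w ψ₀) T) (k : ℕ) :
    ContinuousAt (fun ψ => kappa (tk r G.x) p k (T.image (fun w => act G.h w ψ))) ψ₀ ∧
      ∀ a : List (Fin G.L), ContinuousAt
        (fun ψ => pkap (tk r G.x) p (act G.h a ψ) k (T.image (fun w => act G.h w ψ))) ψ₀ := by
  classical
  suffices ∀ T' : Finset (List (Fin G.L)), T ⊆ T' →
      Set.InjOn (fun w => act G.h w ψ₀) T' →
      ContinuousAt (fun ψ => kappa (tk r G.x) p k (T.image (fun w => act G.h w ψ))) ψ₀ ∧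
        ∀ a ∈ T', ContinuousAt
          (fun ψ => pkap (tk r G.x) p (act G.h a ψ) k (T.image (fun w => act G.h w ψ))) ψ₀ by
    refine ⟨(this T le_rfl hT).1, fun a => ?_⟩
    by_cases h : ∃ b ∈ T, act G.h a ψ₀ = act G.h b ψ₀
    · obtain ⟨b, hb, hab⟩ := h
      refine (continuousAt_congr ?_).2 ((this T le_rfl hT).2 b hb)
      filter_upwards [eventually_act_iff G a b ψ₀] with ψ hψ
      rw [hψ.2 hab]
    · push Not at h
      refine (this (insert a T) (Finset.subset_insert a T) ?_).2 a (Finset.mem_insert_self a T)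
      intro u hu v hv huv
      simp only [Finset.coe_insert, Set.mem_insert_iff, Finset.mem_coe] at hu hv
      simp only at huv
      rcases hu with rfl | hu <;> rcases hv with rfl | hv
      · rfl
      · exact absurd huv (h v hv)
      · exact absurd huv.symm (h u hu)
      · exact hT hu hv huv
  intro T' hTT' hT'
  let wi : Fin T'.card → List (Fin G.L) := fun i => (T'.equivFin.symm i).1
  obtain ⟨d, hd, hY⟩ := G.x_cont T'.card wi
  let Y₀ : K → Matrix (Fin T'.card) (Fin T'.card) ℂ := fun ψ => Matrix.of fun i j =>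
    d ψ i * starRingEnd ℂ (d ψ j) * G.x (act G.h (wi i) ψ) (act G.h (wi j) ψ)
  let Y : K → Fin (r * 3) → Matrix (Fin T'.card) (Fin T'.card) ℂ := fun ψ => tk r (Y₀ ψ)
  have hYc : Continuous Y :=
    continuous_pi fun o => (continuous_matrix (fun i j => hY i j)).const_smul (sgn (okind o))
  set Tf : Finset (Fin T'.card) := Finset.univ.filter (fun i => wi i ∈ T) with hTf
  let p0 : Fin T'.card → Fin (r * 3) → ℝ := fun i => p (act G.h (wi i) ψ₀)
  have hwinj : Function.Injective wi := fun i j h =>
    T'.equivFin.symm.injective (Subtype.ext h)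
  have hev : ∀ᶠ ψ in 𝓝 ψ₀, (∀ i j, act G.h (wi i) ψ = act G.h (wi j) ψ → i = j) ∧
      ∀ i, p (act G.h (wi i) ψ) = p0 i := by
    refine (eventually_all.2 (fun i => eventually_all.2 (fun j => ?_))).and
      (eventually_all.2 (fun i => ?_))
    · filter_upwards [eventually_act_iff G (wi i) (wi j) ψ₀] with ψ hψ h
      exact hwinj (hT' (T'.equivFin.symm i).2 (T'.equivFin.symm j).2 (hψ.1 h))
    · exact (act_continuous G (wi i)).continuousAt.eventually
        ((IsLocallyConstant.iff_eventually_eq p).1 hloc _)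
  have key : ∀ᶠ ψ in 𝓝 ψ₀,
      kappa (tk r G.x) p k (T.image (fun w => act G.h w ψ)) = kappa (Y ψ) p0 k Tf ∧
      ∀ i, pkap (tk r G.x) p (act G.h (wi i) ψ) k (T.image (fun w => act G.h w ψ))
        = pkap (Y ψ) p0 i k Tf := by
    filter_upwards [hev] with ψ hψ
    let ι : Fin T'.card ↪ K := ⟨fun i => act G.h (wi i) ψ, fun i j h => hψ.1 i j h⟩
    have himg : T.image (fun w => act G.h w ψ) = Tf.map ι := by
      ext φ
      simp only [Finset.mem_image, Finset.mem_map, Tf, Finset.mem_filter, Finset.mem_univ,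
        true_and, ι, Function.Embedding.coeFn_mk]
      constructor
      · rintro ⟨w, hw, rfl⟩
        refine ⟨T'.equivFin ⟨w, hTT' hw⟩, by simp [wi, hw], ?_⟩
        change act G.h (wi (T'.equivFin ⟨w, hTT' hw⟩)) ψ = _
        simp [wi]
      · rintro ⟨i, hi, rfl⟩
        exact ⟨_, hi, rfl⟩
    have hco : ∀ R : Finset (Fin T'.card), ∀ j,
        acoef (sub (tk r G.x) ι) (fun i => p (ι i)) j R = acoef (Y ψ) p0 j R := by
      intro R j
      rw [show (fun i => p (ι i)) = p0 from funext (fun i => hψ.2 i)]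
      exact (acoef_phase (d ψ) (fun v _ => hd ψ v) (fun o a _ b _ => by simp [Y, Y₀, tk, sub]; rw [show ι a = act G.h (wi a) ψ from rfl, show ι b = act G.h (wi b) ψ from rfl]; ring) j).symm
    rw [himg]
    refine ⟨?_, fun i => ?_⟩
    · rw [kappa_map hp]
      exact kappa_of_acoef (fun R _ => hco R) k
    · rw [show act G.h (wi i) ψ = ι i from rfl, pkap_map hp]
      exact pkap_of_acoef (fun R _ => hco R) k
  refine ⟨(continuousAt_congr (key.mono fun ψ h => h.1)).2
    ((kappa_continuous p0 k Tf).comp hYc).continuousAt, fun a ha => ?_⟩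
  have hae : wi (T'.equivFin ⟨a, ha⟩) = a := by simp [wi]
  refine (continuousAt_congr (key.mono fun ψ h => ?_)).2
    ((pkap_continuous p0 (T'.equivFin ⟨a, ha⟩) k Tf).comp hYc).continuousAt
  have h2 := h.2 (T'.equivFin ⟨a, ha⟩)
  rwa [hae] at h2

end Vale.Agent.P078.Sharp
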